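import Vale.Agent.P146.H643.KLow
import Vale.Agent.P146.H197.Mast3

/-!
# P146: the upper bound of the relative entropy from the root equation at typical points

On the names of `H418.Skel`:

* `kamp_up5`: `H197.kamp_gen` with three terms in the second regime;
* `rr_up`: the second moment of the overlap from above at one point, test function of `H317`;
* `rr_up2`: the same for large `T`, test function `1`;
* `kup_n`: the upper bound of the relative entropy from the numbers at the points of a selection.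
-/

open MeasureTheory ProbabilityTheory Set

namespace Vale.Agent.P146.H75

open Vale.Agent.P157.Lv hiding Dep
open Vale.Agent.P146.H425 Vale.Agent.P146.H646
open Vale.Agent.P146.H325 hiding cb cf
open Vale.Agent.P146.H196 Vale.Agent.P146.H246 Vale.Agent.P146.H347
  Vale.Agent.P146.H816 Vale.Agent.P146.H119 Vale.Agent.P146.H475 Vale.Agent.P146.H418
  Vale.Agent.P146.H317 Vale.Agent.P146.H643

set_option linter.unusedSectionVars false

/-! ### integrals -/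

lemma int_inv_one {W T₂ T₃ : ℝ} (h2 : 0 < T₂) (h23 : T₂ ≤ T₃) :
    IntervalIntegrable (fun T : ℝ => W / T) volume T₂ T₃ ∧
      ∫ T in T₂..T₃, W / T = W * Real.log (T₃ / T₂) := by
  have h3 : 0 < T₃ := h2.trans_le h23
  have hci : IntervalIntegrable (fun T : ℝ => W / T) volume T₂ T₃ := by
    refine ContinuousOn.intervalIntegrable ?_
    rw [uIcc_of_le h23]
    refine continuousOn_const.div continuousOn_id fun T hT => ?_
    exact (h2.trans_le hT.1).ne'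
  refine ⟨hci, ?_⟩
  have e : (fun T : ℝ => W / T) = fun T => W * T⁻¹ := by
    funext T
    rw [div_eq_mul_inv]
  rw [e, intervalIntegral.integral_const_mul, integral_inv_of_pos h2 h3]

/-- `H197.kamp_gen` with the second regime at one time of every window, three terms. -/
theorem kamp_up5 {K A c a w η e T₂ T₃ R E1 W2 W3 W4 E0 : ℝ} {r : ℝ → ℝ} {N : ℕ} (hA : 0 ≤ A)
    (hc : 0 < c) (hw : 0 < w) (ha : 0 ≤ a) (hη : 0 ≤ η) (hη4 : η ≤ 1 / 4) (he : 0 ≤ e)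
    (hE1 : 0 ≤ E1) (hW2 : 0 ≤ W2) (hW3 : 0 ≤ W3) (hW4 : 0 ≤ W4)
    (hN : gg η (N + 1) ≤ T₂) (h23 : T₂ ≤ T₃) (h3 : T₃ ≤ 1)
    (hR : rho ((1 - η) * c) ((1 + η) * a + e) ((1 + η) * w) 0 ≤ R)
    (hr : AntitoneOn r (Ioc 0 1)) (hr0 : ∀ T ∈ Ioc (0 : ℝ) 1, 0 ≤ r T)
    (hK : K ≤ A * (∑ l ∈ Finset.range N, (gg η l - gg η (l + 1)) * r (gg η (l + 1)) + E0))
    (h1 : ∀ T ∈ Icc (gg η (N + 1)) T₂, ∃ T' ∈ Icc (T / (1 + η)) T,
      r T' ≤ rho ((1 - η) * c) ((1 + η) * a + e) ((1 + η) * w) T' ^ 2 + E1)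
    (h2 : ∀ T ∈ Icc T₂ T₃, ∃ T' ∈ Icc (T / (1 + η)) T,
      r T' ≤ W2 / T' ^ 2 + W3 / (T' * √T') + W4 / T') :
    K ≤ A * (J c a w + (7 * η * (w * R + c * R ^ 3) + 3 * (η * a + e) * R ^ 2 + 3 * T₂ * E1 +
      (4 * (W2 / T₂ + W2 / T₃ ^ 2) + 8 * (W3 / √T₂ + W3 / (T₃ * √T₃)) +
        4 * (W4 * Real.log (T₃ / T₂) + W4 / T₃)) + E0)) := by
  have h1η : 0 < 1 + η := by linarith
  have hT0 : 0 < gg η (N + 1) := gg_pos hη _
  have hT2 : 0 < T₂ := hT0.trans_le hN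
  have hT3 : 0 < T₃ := hT2.trans_le h23
  have h2' : ∀ T ∈ Icc T₂ T₃, r T ≤ 2 * W2 / T ^ 2 + 2 * W3 / (T * √T) + 2 * W4 / T := by
    intro T hT
    have hTp : 0 < T := hT2.trans_le hT.1
    obtain ⟨T', hT', h⟩ := h2 T hT
    have hq : 0 < T / (1 + η) := by positivity
    have hT'p : 0 < T' := hq.trans_le hT'.1
    have hT1 : T ≤ 1 := hT.2.trans h3
    have e1 : r T ≤ r T' := hr ⟨hT'p, hT'.2.trans hT1⟩ ⟨hTp, hT1⟩ hT'.2
    have hs : 0 < √T := Real.sqrt_pos.2 hTp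
    have hs' : 0 < √T' := Real.sqrt_pos.2 hT'p
    have e2 : T ≤ (1 + η) * T' := by
      have := hT'.1
      rw [div_le_iff₀ h1η] at this
      linarith
    have e4 : (1 + η) ^ 2 ≤ 2 := by nlinarith
    refine (e1.trans h).trans (add_le_add (add_le_add ?_ ?_) ?_)
    · rw [div_le_div_iff₀ (by positivity) (by positivity)]
      have e3 : T ^ 2 ≤ ((1 + η) * T') ^ 2 := pow_le_pow_left₀ hTp.le e2 2
      have e5 : 0 ≤ W2 * T' ^ 2 := by positivity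
      calc W2 * T ^ 2 ≤ W2 * ((1 + η) * T') ^ 2 := mul_le_mul_of_nonneg_left e3 hW2
        _ = (1 + η) ^ 2 * (W2 * T' ^ 2) := by ring
        _ ≤ 2 * (W2 * T' ^ 2) := mul_le_mul_of_nonneg_right e4 e5
        _ = 2 * W2 * T' ^ 2 := by ring
    · rw [div_le_div_iff₀ (by positivity) (by positivity)]
      have e6 : √T ≤ (1 + η) * √T' := by
        rw [Real.sqrt_le_left (by positivity), mul_pow, Real.sq_sqrt hT'p.le]
        refine e2.trans ?_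
        have : 1 + η ≤ (1 + η) ^ 2 := by nlinarith
        exact mul_le_mul_of_nonneg_right this hT'p.le
      have e7 : T * √T ≤ (1 + η) * T' * ((1 + η) * √T') :=
        mul_le_mul e2 e6 hs.le (by positivity)
      have e5 : 0 ≤ W3 * (T' * √T') := by positivity
      calc W3 * (T * √T) ≤ W3 * ((1 + η) * T' * ((1 + η) * √T')) :=
            mul_le_mul_of_nonneg_left e7 hW3
        _ = (1 + η) ^ 2 * (W3 * (T' * √T')) := by ring
        _ ≤ 2 * (W3 * (T' * √T')) := mul_le_mul_of_nonneg_right e4 e5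
        _ = 2 * W3 * (T' * √T') := by ring
    · rw [div_le_div_iff₀ hT'p hTp]
      have e5 : 0 ≤ W4 * T' := by positivity
      calc W4 * T ≤ W4 * ((1 + η) * T') := mul_le_mul_of_nonneg_left e2 hW4
        _ = (1 + η) * (W4 * T') := by ring
        _ ≤ 2 * (W4 * T') := mul_le_mul_of_nonneg_right (by linarith) e5
        _ = 2 * W4 * T' := by ring
  obtain ⟨i1, v1⟩ := H197.int_inv_sq (W := 2 * W2) hT2 h23
  obtain ⟨i2, v2⟩ := H197.int_inv_sqrt (W := 2 * W3) hT2 h23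
  obtain ⟨i3, v3⟩ := int_inv_one (W := 2 * W4) hT2 h23
  have hs2 : 0 < √T₂ := Real.sqrt_pos.2 hT2
  have hs3 : 0 < √T₃ := Real.sqrt_pos.2 hT3
  have hlog : 0 ≤ Real.log (T₃ / T₂) := Real.log_nonneg (by rwa [le_div_iff₀ hT2, one_mul])
  have hG : ∫ T in T₂..T₃, r T ≤ 2 * W2 / T₂ + 2 * (2 * W3) / √T₂ +
      2 * W4 * Real.log (T₃ / T₂) := by
    refine (intervalIntegral.integral_mono_on h23 (ii_anti hr hT2 h23 h3) ((i1.add i2).add i3)
      fun T hT => h2' T hT).trans ?_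
    rw [intervalIntegral.integral_add (i1.add i2) i3, intervalIntegral.integral_add i1 i2, v1,
      v2, v3]
    have h6 : 0 ≤ 2 * W2 / T₃ := by positivity
    have h7 : 0 ≤ 2 * (2 * W3) / √T₃ := by positivity
    linarith
  have k := H197.kamp_gen hA hc hw ha hη hη4 he hE1 (by positivity) (by positivity) hN h23 h3 hR
    hr hr0 hK h1 hG (h2' T₃ ⟨h23, le_rfl⟩)
  refine k.trans (mul_le_mul_of_nonneg_left ?_ hA)
  have h8 : 0 ≤ W3 / (T₃ * √T₃) := by positivity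
  have e1 : 2 * (2 * W2 / T₂ + 2 * (2 * W3) / √T₂ + 2 * W4 * Real.log (T₃ / T₂) +
      (2 * W2 / T₃ ^ 2 + 2 * W3 / (T₃ * √T₃) + 2 * W4 / T₃)) =
      4 * (W2 / T₂ + W2 / T₃ ^ 2) + 8 * (W3 / √T₂) + 4 * (W3 / (T₃ * √T₃)) +
        4 * (W4 * Real.log (T₃ / T₂) + W4 / T₃) := by ring
  rw [e1]
  linarith

/-! ### one point -/

section point

variable {L : Law}

/-- the root of the upper equation at the share `u` of the field -/
noncomputable def rhoU (L : Law) (a1 e1 u T : ℝ) : ℝ :=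
  rho ((1 - e1) * (L.b * L.x)) a1 (u * L.vp / L.b ^ 2) T

/-- the test function of the upper equation -/
noncomputable def phiU (L : Law) (a1 e1 u T : ℝ) : ℝ → ℝ :=
  phi ((1 - e1) * (L.b * L.x)) a1 (u * L.vp / L.b ^ 2) T

/-- the bound of the test function -/
noncomputable def PU (L : Law) (a1 e1 u T : ℝ) : ℝ :=
  1 / ((1 - e1) * (L.b * L.x)) + rhoU L a1 e1 u T ^ 2 / (u * L.vp / L.b ^ 2)

/-- the Lipschitz constant of the test function in `√Q` -/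
noncomputable def LrU (L : Law) (a1 e1 u T : ℝ) : ℝ :=
  (1 + (1 - e1) * (L.b * L.x) * rhoU L a1 e1 u T ^ 2 / (u * L.vp / L.b ^ 2)) *
    √(rhoU L a1 e1 u T / ((1 - e1) * (L.b * L.x) * (u * L.vp / L.b ^ 2)))

/-- the third order term for the test function `φ (Q)` -/
noncomputable def C3U (L : Law) (r0 : ℝ) (φ : ℝ → ℝ) (m : ℕ) (t u : ℝ) (i0 : Fin L.n) : ℝ :=
  H615.C3v L.n L.b (cb t) (cf L.vp u) L.s L.η L.lam L.c L.x (1 - (1 - L.x) * r0) (Sn L.n m)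
    {true} {true} i0 (fun z => φ (L.Q (Sn L.n m) t u z))

/-- the tail of `Q` -/
noncomputable def pQ (L : Law) (U : ℝ) (S : Finset (Fin L.n)) (t u : ℝ) : ℝ :=
  L.ex' t u (H317.ind U (L.Q S t u))

lemma wt_L (hA : H320.Adm L) (t u : ℝ) : Wt (g1 (Co L.n Bool Bool)) (L.wt t u) :=
  wtA (n := L.n) L.b (cb t) (cf L.vp u) L.s hA.lam0 hA.η0 L.c L.x

lemma bm_Q (hA : H320.Adm L) (S : Finset (Fin L.n)) (t u : ℝ) : BM (L.Q S t u) :=
  H615.bm_Qv (b := L.b) (cB := cb t) (cF := cf L.vp u) (s := L.s) (c := L.c) (x := L.x)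
    hA.lam0 hA.η0 S {true} {true}

lemma Q_nonneg (S : Finset (Fin L.n)) (t u : ℝ) (z : Co L.n Bool Bool → ℝ) : 0 ≤ L.Q S t u z :=
  H615.Qv_nonneg S {true} {true} z

lemma abs_cx_al (hA : H320.Adm L) (S : Finset (Fin L.n)) (t u : ℝ) (j : Fin L.n)
    (z : Co L.n Bool Bool → ℝ) :
    |L.cx' S t u (fun w => al L.η w.1 * sp w.2 j) z| ≤ 1 + L.η := by
  have hw := wt_L hA t u
  refine hw.abs_cx_le _ ((H615.av_gm (gmA (n := L.n) L.b (cb t) (cf L.vp u) L.s hA.lam0 hA.η0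
    L.c) 1).bm ((bm_of_al (n := L.n) hA.η0).mul (H347.bm_sp j))) (fun z' => ?_) z
  exact H205.abs_Fa L.b (cb t) (cf L.vp u) L.s L.η hA.lam0 hA.η0 L.c j z'

lemma Q_le (hA : H320.Adm L) (S : Finset (Fin L.n)) (t u : ℝ) (z : Co L.n Bool Bool → ℝ) :
    L.Q S t u z ≤ (1 + L.η) ^ 2 := by
  have hn' : (0 : ℝ) < L.n := by exact_mod_cast hA.n0
  unfold Law.Q
  rw [div_le_iff₀ hn']
  have h1 : ∀ j ∈ S, L.cx' S t u (fun w => al L.η w.1 * sp w.2 j) z ^ 2 ≤ (1 + L.η) ^ 2 := by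
    intro j _
    rw [← sq_abs]
    exact pow_le_pow_left₀ (abs_nonneg _) (abs_cx_al hA S t u j z) 2
  calc ∑ j ∈ S, L.cx' S t u (fun w => al L.η w.1 * sp w.2 j) z ^ 2 ≤
        ∑ _j ∈ S, (1 + L.η) ^ 2 := Finset.sum_le_sum h1
    _ = S.card * (1 + L.η) ^ 2 := by rw [Finset.sum_const, nsmul_eq_mul]
    _ ≤ L.n * (1 + L.η) ^ 2 := by
        refine mul_le_mul_of_nonneg_right ?_ (sq_nonneg _)
        have := Finset.card_le_univ S
        rw [Fintype.card_fin] at this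
        exact_mod_cast this
    _ = _ := by ring

/-- `E Q² ≤ U E Q + tail` -/
lemma qq_le (hA : H320.Adm L) (S : Finset (Fin L.n)) (t u : ℝ) {U : ℝ} (hU : 0 ≤ U) :
    L.qq S t u ≤ U * L.ex' t u (L.Q S t u) + (1 + L.η) ^ 4 * pQ L U S t u := by
  have hw := wt_L hA t u
  have bQ := bm_Q hA S t u
  have bi : BM (H317.ind U (L.Q S t u)) := bm_ind bQ.meas U
  unfold Law.qq pQ Law.ex'
  rw [← H615.ex_cmul, ← H615.ex_cmul, ← H615.ex_add hw (H615.bcm _ bQ) (H615.bcm _ bi)]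
  refine H615.ex_mono hw (H615.bsq bQ) ((H615.bcm _ bQ).add (H615.bcm _ bi)) fun z => ?_
  have h0 := Q_nonneg S t u z
  have h1 := Q_le hA S t u z
  have hη := hA.η0
  by_cases hz : U < L.Q S t u z
  · have e : H317.ind U (L.Q S t u) z = 1 := if_pos hz
    rw [e]
    have h2 : L.Q S t u z ^ 2 ≤ ((1 + L.η) ^ 2) ^ 2 := pow_le_pow_left₀ h0 h1 2
    have h3 : 0 ≤ U * L.Q S t u z := mul_nonneg hU h0
    have e4 : ((1 + L.η) ^ 2) ^ 2 = (1 + L.η) ^ 4 := by ring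
    rw [e4] at h2
    linarith
  · have e : H317.ind U (L.Q S t u) z = 0 := if_neg hz
    rw [e, mul_zero, add_zero, sq]
    exact mul_le_mul_of_nonneg_right (not_lt.1 hz) h0

lemma exQ_nonneg (hA : H320.Adm L) (S : Finset (Fin L.n)) (t u : ℝ) :
    0 ≤ L.ex' t u (L.Q S t u) := H615.ex_nonneg (wt_L hA t u) fun z => Q_nonneg S t u z

lemma pQ_nonneg (hA : H320.Adm L) (U : ℝ) (S : Finset (Fin L.n)) (t u : ℝ) :
    0 ≤ pQ L U S t u := H615.ex_nonneg (wt_L hA t u) fun z => ind_nonneg _ _ z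

/-- the data of one point -/
lemma pt_data (hA : H320.Adm L) {m : ℕ} (hmn : m < L.n) {T u : ℝ} (hT1 : T ≤ 1) (hu0 : 0 < u)
    {i0 : Fin L.n} (hi0 : i0.1 + m = L.n) :
    (∑ l ∈ ({true} : Finset Bool), cf L.vp u l ^ 2 = L.b ^ 2 * (u * L.vp / L.b ^ 2)) ∧
    (∑ l ∈ ({true} : Finset Bool), cb (1 - T) l ^ 2 = 1 - T) ∧ (Sn L.n m).Nonempty ∧
    i0 ∉ Sn L.n m ∧ ((Finset.univ : Finset (Fin L.n)) \ Sn L.n m).Nonempty := by
  have hwf : ∑ l ∈ ({true} : Finset Bool), cf L.vp u l ^ 2 = L.b ^ 2 * (u * L.vp / L.b ^ 2) := by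
    have hb2 : L.b ≠ 0 := hA.b0.ne'
    rw [Finset.sum_singleton]
    simp only [cf, cb, if_true, mul_pow]
    rw [Real.sq_sqrt hA.vp0.le, Real.sq_sqrt hu0.le]
    field_simp
  have ht : ∑ l ∈ ({true} : Finset Bool), cb (1 - T) l ^ 2 = 1 - T := by
    rw [Finset.sum_singleton]
    simp only [cb, if_true]
    exact Real.sq_sqrt (by linarith)
  have hSn : (Sn L.n m).Nonempty := by
    rw [← Finset.card_pos, card_Sn hmn.le]
    omega
  have hi1 : i0 ∉ Sn L.n m := by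
    simp only [Sn, Finset.mem_filter, Finset.mem_univ, true_and]
    omega
  exact ⟨hwf, ht, hSn, hi1, ⟨i0, Finset.mem_sdiff.2 ⟨Finset.mem_univ _, hi1⟩⟩⟩

lemma alg_up {θ p q E0 : ℝ} (hθ : 0 ≤ θ) (hθ1 : θ ≤ 1) (hp : 0 ≤ p) (hE : 0 ≤ E0)
    (h : q ≤ p + E0) : (1 + θ) ^ 2 * q ≤ p + 3 * θ * p + 4 * E0 := by
  have h4 : (1 + θ) ^ 2 * q ≤ (1 + θ) ^ 2 * (p + E0) := mul_le_mul_of_nonneg_left h (sq_nonneg _)
  have h6 : (1 + θ) ^ 2 ≤ 1 + 3 * θ := by nlinarith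
  have h7 : (1 + θ) ^ 2 ≤ 4 := by nlinarith
  have h8 := mul_le_mul_of_nonneg_right h6 hp
  have h9 := mul_le_mul_of_nonneg_right h7 hE
  linarith

/-- **The second moment of the overlap from above, at one point.** -/
theorem rr_up (hA : H320.Adm L) (hη1 : L.η ≤ 1 / 2) (hs : L.s ≠ 0) (hx0 : 0 < L.x)
    (hx1 : L.x < 1) {r0 : ℝ} (hc : L.c = L.s ^ 2 * L.n * (1 - (1 - L.x) * r0))
    (hk : 0 < L.b * (1 - (1 - L.x) * r0)) {m : ℕ} (hmn : m < L.n) {T u : ℝ}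
    (hT1 : T ≤ 1) (hu0 : 0 < u) {i0 : Fin L.n}
    (hi0 : i0.1 + m = L.n) {a1 e' e3 err3 θ : ℝ}
    (hAt : 1 - e' ≤ L.b * (1 - (1 - L.x) * r0) * (1 - T) ^ 2)
    (ha : 1 - 1 / (L.b * (1 - (1 - L.x) * r0)) ^ 2 ≤ a1) (he : e' + e3 < 1)
    (hθ : 0 < θ) (hθ1 : θ ≤ 1)
    (hC3 : C3U L r0 (phiU L a1 (e' + e3) u T) m (1 - T) u i0 ≤
      (L.b * (1 - (1 - L.x) * r0)) ^ 2 * (e3 * (L.b * L.x) * L.ex' (1 - T) u (fun z =>
        phiU L a1 (e' + e3) u T (L.Q (Sn L.n m) (1 - T) u z) *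
          L.Q (Sn L.n m) (1 - T) u z ^ 2)) + err3)
    {c2 a2 w2 E0 : ℝ} (hc20 : 0 < c2) (hc2 : c2 ≤ (1 - (e' + e3)) * (L.b * L.x)) (ha2 : a1 ≤ a2)
    (hw2 : u * L.vp / L.b ^ 2 ≤ w2) (hE0 : 0 ≤ E0)
    (hE : err3 / (L.b * (1 - (1 - L.x) * r0)) ^ 2 +
      XE L r0 (PU L a1 (e' + e3) u T) (LrU L a1 (e' + e3) u T) m (1 - T) u i0 ≤ E0) :
    L.rr (Sn L.n m) (1 - T) u ≤ rho c2 a2 w2 T ^ 2 + (3 * θ * rho c2 a2 w2 T ^ 2 + 4 * E0 +
      (1 + θ) * (1 + 1 / θ) * (L.η * (2 + L.η)) ^ 2 * CC L (Sn L.n m) (1 - T) u +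
      (1 + 1 / θ) * L.rk (Sn L.n m) (1 - T) u) := by
  obtain ⟨hwf, ht, hSn, hi1, hne⟩ := pt_data hA hmn hT1 hu0 hi0
  have hvb : 0 < u * L.vp / L.b ^ 2 := by
    have := hA.vp0
    have := hA.b0
    positivity
  have hbx : 0 < L.b * L.x := mul_pos hA.b0 hx0
  have e1 : (1 - e' - e3) * (L.b * L.x) = (1 - (e' + e3)) * (L.b * L.x) := by ring
  have hw := wt_L hA (1 - T) u
  have key := H615.point_up hA.lam0 hA.η0 hη1 hs hx0 hx1 hA.n0 hc hk hA.b0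
    (Finset.subset_univ (Sn L.n m)) hSn hi1 hne ht hwf hvb (a := a1) (e' := e') (e3 := e3)
    (err3 := err3) hAt ha he (c1 := (1 - (e' + e3)) * (L.b * L.x)) e1.symm
    (ρ := rhoU L a1 (e' + e3) u T) (by unfold rhoU; congr 1; ring)
    (P := PU L a1 (e' + e3) u T) rfl (Lr := LrU L a1 (e' + e3) u T) rfl
    (by
      have e2 : (1 : ℝ) - (1 - T) = T := by ring
      rw [e2]
      exact hC3)
  have h1 : L.qq (Sn L.n m) (1 - T) u ≤ rhoU L a1 (e' + e3) u T ^ 2 + E0 := by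
    have h2 : L.qq (Sn L.n m) (1 - T) u ≤ rhoU L a1 (e' + e3) u T ^ 2 +
        (err3 + PU L a1 (e' + e3) u T * H615.Er1 L.n L.b (cb (1 - T)) (cf L.vp u) L.s L.η L.lam
          L.c L.x r0 (1 - T) (u * L.vp / L.b ^ 2) (Sn L.n m) Finset.univ {true} {true} +
        H615.E2n L.n L.b (cb (1 - T)) (cf L.vp u) L.s L.η L.lam L.c L.x
          (PU L a1 (e' + e3) u T) (LrU L a1 (e' + e3) u T) (Sn L.n m) {true} {true} i0) /
        (L.b * (1 - (1 - L.x) * r0)) ^ 2 := key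
    unfold XE at hE
    rw [← add_div, ← add_assoc] at hE
    linarith
  have hc10 : 0 < (1 - (e' + e3)) * (L.b * L.x) := hc20.trans_le hc2
  have hmono : rhoU L a1 (e' + e3) u T ≤ rho c2 a2 w2 T :=
    rho_mono hc20 hc2 hvb hw2 (by linarith)
  have hp2 : 0 < rhoU L a1 (e' + e3) u T := rho_pos hc10 hvb
  have hsq : rhoU L a1 (e' + e3) u T ^ 2 ≤ rho c2 a2 w2 T ^ 2 :=
    pow_le_pow_left₀ hp2.le hmono 2
  have h3 := rr_le_qq (S := Sn L.n m) (t := 1 - T) (u := u) hA.lam0 hA.η0 hA.n0 hθ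
  set q := L.qq (Sn L.n m) (1 - T) u with hq
  set p := rho c2 a2 w2 T ^ 2 with hp
  have hp0 : 0 ≤ p := by rw [hp]; positivity
  have h4 := alg_up hθ.le hθ1 hp0 hE0 (show q ≤ p + E0 by linarith)
  linarith

/-- the error of the second regime at one point -/
noncomputable def Err2 (L : Law) (r0 c3 err3 U : ℝ) (m : ℕ) (T u : ℝ) (i0 : Fin L.n) : ℝ :=
  4 * (U * (2 / T * (u * L.vp / L.b ^ 2 + (err3 / (L.b * (1 - (1 - L.x) * r0)) ^ 2 +
      XE L r0 1 0 m (1 - T) u i0) + c3 * (1 + L.η) ^ 4 * pQ L U (Sn L.n m) (1 - T) u)) +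
    (1 + L.η) ^ 4 * pQ L U (Sn L.n m) (1 - T) u) +
  4 * (L.η * (2 + L.η)) ^ 2 * CC L (Sn L.n m) (1 - T) u + 2 * L.rk (Sn L.n m) (1 - T) u

/-- **The second moment of the overlap from above at one point, large `T`.** -/
theorem rr_up2 (hA : H320.Adm L) (hη1 : L.η ≤ 1 / 2) (hs : L.s ≠ 0) (hx0 : 0 < L.x)
    (hx1 : L.x < 1) {r0 : ℝ} (hc : L.c = L.s ^ 2 * L.n * (1 - (1 - L.x) * r0))
    (hk : 0 < L.b * (1 - (1 - L.x) * r0)) {m : ℕ} (hmn : m < L.n) {T u : ℝ}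
    (hT0 : 0 < T) (hT1 : T ≤ 1) (hu0 : 0 < u) {i0 : Fin L.n}
    (hi0 : i0.1 + m = L.n) {a1 c3 err3 U : ℝ} (hU : 0 ≤ U) (hc3 : 0 ≤ c3)
    (ha : 1 - 1 / (L.b * (1 - (1 - L.x) * r0)) ^ 2 ≤ a1)
    (haU : a1 + c3 * U ≤ T / 2)
    (hC3 : C3U L r0 (fun _ => 1) m (1 - T) u i0 ≤
      (L.b * (1 - (1 - L.x) * r0)) ^ 2 * (c3 * L.qq (Sn L.n m) (1 - T) u) + err3) :
    L.rr (Sn L.n m) (1 - T) u ≤ Err2 L r0 c3 err3 U m T u i0 := by
  obtain ⟨hwf, ht, hSn, hi1, hne⟩ := pt_data hA hmn hT1 hu0 hi0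
  have hvb : 0 < u * L.vp / L.b ^ 2 := by
    have := hA.vp0
    have := hA.b0
    positivity
  have hbx : 0 < L.b * L.x := mul_pos hA.b0 hx0
  have hw := wt_L hA (1 - T) u
  have bQ := bm_Q hA (Sn L.n m) (1 - T) u
  have hAt0 : 1 - (1 : ℝ) ≤ L.b * (1 - (1 - L.x) * r0) * (1 - T) ^ 2 := by
    have : 0 ≤ L.b * (1 - (1 - L.x) * r0) * (1 - T) ^ 2 := mul_nonneg hk.le (sq_nonneg _)
    linarith
  have key := (H615.point_G hA.lam0 hA.η0 hη1 hs hx0 hx1 hA.n0 hc hk hA.b0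
    (Finset.subset_univ (Sn L.n m)) hSn hi1 hne ht hwf hvb.le (G := fun _ => 1) (P := 1)
    (Lr := 0) measurable_const (fun _ _ => zero_le_one) zero_le_one (fun _ _ => le_rfl) le_rfl
    (fun r r' _ _ => by simp)).1 hAt0 ha
  set A := L.b * (1 - (1 - L.x) * r0) with hAdef
  have hA2 : 0 < A ^ 2 := by positivity
  set X := L.ex' (1 - T) u (L.Q (Sn L.n m) (1 - T) u) with hX
  have hX0 : 0 ≤ X := exQ_nonneg hA _ _ _
  set q := L.qq (Sn L.n m) (1 - T) u with hq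
  set pp := pQ L U (Sn L.n m) (1 - T) u with hpp
  have hpp0 : 0 ≤ pp := pQ_nonneg hA _ _ _ _
  set V := u * L.vp / L.b ^ 2 with hV
  have e1 : exS L.n L.b (cb (1 - T)) (cf L.vp u) L.s L.η L.lam L.c L.x
      (fun z => (fun _ : ℝ => (1 : ℝ)) (√(H615.Qv L.n L.b (cb (1 - T)) (cf L.vp u) L.s L.η L.lam
        L.c L.x (Sn L.n m) {true} {true} z)) *
        ((1 - 1) * (L.b * L.x) * H615.Qv L.n L.b (cb (1 - T)) (cf L.vp u) L.s L.η L.lam
        L.c L.x (Sn L.n m) {true} {true} z ^ 2 + (1 - (1 - T) - a1) *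
        H615.Qv L.n L.b (cb (1 - T)) (cf L.vp u) L.s L.η L.lam
        L.c L.x (Sn L.n m) {true} {true} z - V)) = (T - a1) * X - V := by
    have e2 : (fun z : Co L.n Bool Bool → ℝ => (fun _ : ℝ => (1 : ℝ)) (√(H615.Qv L.n L.b
        (cb (1 - T)) (cf L.vp u) L.s L.η L.lam L.c L.x (Sn L.n m) {true} {true} z)) *
        ((1 - 1) * (L.b * L.x) * H615.Qv L.n L.b (cb (1 - T)) (cf L.vp u) L.s L.η L.lam
        L.c L.x (Sn L.n m) {true} {true} z ^ 2 + (1 - (1 - T) - a1) *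
        H615.Qv L.n L.b (cb (1 - T)) (cf L.vp u) L.s L.η L.lam
        L.c L.x (Sn L.n m) {true} {true} z - V)) =
        fun z => (T - a1) * L.Q (Sn L.n m) (1 - T) u z - V := by
      funext z
      rw [Qv_eq]
      ring
    rw [e2]
    show ex (g1 (Co L.n Bool Bool)) (L.wt (1 - T) u)
      (fun z => (T - a1) * L.Q (Sn L.n m) (1 - T) u z - V) = _
    rw [H615.ex_sub (wt_L hA (1 - T) u) (H615.bcm _ bQ) (BM.const _),
      H615.ex_const (wt_L hA (1 - T) u), H615.ex_cmul]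
    rfl
  rw [e1] at key
  have hC3' : H615.C3v L.n L.b (cb (1 - T)) (cf L.vp u) L.s L.η L.lam L.c L.x
      (1 - (1 - L.x) * r0) (Sn L.n m) {true} {true} i0
      (fun z => (fun _ : ℝ => (1 : ℝ)) (√(H615.Qv L.n L.b (cb (1 - T)) (cf L.vp u) L.s L.η L.lam
        L.c L.x (Sn L.n m) {true} {true} z))) ≤ A ^ 2 * (c3 * q) + err3 := hC3
  have h1 : (T - a1) * X - V ≤ c3 * q + (err3 / A ^ 2 + XE L r0 1 0 m (1 - T) u i0) := by
    refine key.trans ?_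
    unfold XE
    rw [← hAdef, ← hV, ← add_div]
    rw [div_le_iff₀ hA2, add_mul, div_mul_cancel₀ _ hA2.ne']
    have h2 : c3 * q * A ^ 2 = A ^ 2 * (c3 * q) := by ring
    rw [h2]
    linarith
  have hqq := qq_le hA (Sn L.n m) (1 - T) u hU
  rw [← hX, ← hpp, ← hq] at hqq
  set Y := err3 / A ^ 2 + XE L r0 1 0 m (1 - T) u i0 with hY
  have h2 : T / 2 * X ≤ V + Y + c3 * (1 + L.η) ^ 4 * pp := by
    have h3 := mul_le_mul_of_nonneg_left hqq hc3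
    have h4 := mul_le_mul_of_nonneg_right haU hX0
    nlinarith
  have h5 : X ≤ 2 / T * (V + Y + c3 * (1 + L.η) ^ 4 * pp) := by
    have h6 := mul_le_mul_of_nonneg_left h2 (show 0 ≤ 2 / T by positivity)
    have h7 : 2 / T * (T / 2 * X) = X := by
      field_simp
    rw [h7] at h6
    exact h6
  have h8 : q ≤ U * (2 / T * (V + Y + c3 * (1 + L.η) ^ 4 * pp)) + (1 + L.η) ^ 4 * pp := by
    have h9 := mul_le_mul_of_nonneg_left h5 hU
    linarith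
  have h9 := rr_le_qq (S := Sn L.n m) (t := 1 - T) (u := u) (θ := 1) hA.lam0 hA.η0 hA.n0
    one_pos
  rw [← hq] at h9
  unfold Err2
  rw [← hAdef, ← hV, ← hpp, ← hY]
  have h10 : (1 + (1 : ℝ)) ^ 2 = 4 := by norm_num
  have h11 : (1 + (1 : ℝ)) * (1 + 1 / 1) = 4 := by norm_num
  have h12 : (1 + (1 : ℝ) / 1) = 2 := by norm_num
  rw [h10, h11, h12] at h9
  linarith

/-! ### the selection and the upper bound -/

/-- a choice of points: in every window `[T / (1 + h), T]` with `T` in `[Ta, Tb]` -/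
def Sel (h Ta Tb u0 u1 : ℝ) (m1 m2 : ℕ) (PT : ℝ → ℝ → ℕ → Prop) : Prop :=
  ∀ T ∈ Icc Ta Tb, ∃ T' ∈ Icc (T / (1 + h)) T, ∃ u ∈ Icc u0 u1, ∃ m ∈ Finset.Icc m1 m2,
    PT T' u m

/-- the numbers of the typical point `(T, u, m)` in the two-level system; the windows are
`[1 - T - .., 1 - T'']` with `T'' ∈ [T / (1 + h), T]` for the bonds and `[u0, u1]` for the
field -/
def TypU (L : Law) (h u0 u1 : ℝ) (m1 m2 : ℕ) (T u : ℝ) (m : ℕ) : Prop :=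
  ∃ T'' ∈ Icc (T / (1 + h)) T, H320.Typ L (cb (1 - T)) (cf L.vp u) (1 - T'') u1 (h * T'')
    (u1 - u0) 6 ((m2 : ℝ) - m1 + 1) m {true} {true}

/-- the choice exists -/
theorem sel_typU (hA : H320.Adm L) {h Ta Tb u0 u1 : ℝ} {m1 m2 : ℕ} (hh : 0 ≤ h) (hTa : 0 < Ta)
    (hTb : Tb ≤ 1) (hm1 : 1 ≤ m1) (hm12 : m1 ≤ m2) (hu0 : 0 ≤ u0) (hu01 : u0 ≤ u1)
    (hu1 : u1 ≤ 1) : Sel h Ta Tb u0 u1 m1 m2 (TypU L h u0 u1 m1 m2) := by
  intro T hT
  have h1 : 0 < 1 + h := by linarith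
  have hT0 : 0 < T := hTa.trans_le hT.1
  have hT1 : T ≤ 1 := hT.2.trans hTb
  have hq : 0 < T / (1 + h) := by positivity
  have hqT : T / (1 + h) ≤ T := div_le_self hT0.le (by linarith)
  obtain ⟨t, ht, u, hu, m, hm, hty⟩ := H320.typ1 hA hm1 hm12 (t0 := 1 - T)
    (t1 := 1 - T / (1 + h)) (u0 := u0) (u1 := u1) (by linarith) (by linarith) (by linarith)
    hu0 hu01 hu1
  have e0 : 1 - (1 - t) = t := by ring
  refine ⟨1 - t, ⟨by linarith [ht.2], by linarith [ht.1]⟩, u, hu, m, hm, T / (1 + h),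
    ⟨?_, by linarith [ht.2]⟩, ?_⟩
  · rw [div_le_div_iff_of_pos_right h1]
    linarith [ht.1]
  · have h2 := hty Bool Bool (cb t) (cf L.vp u) {true} {true}
      (H320.sh_can hA (by linarith [ht.1]) (by linarith [ht.2]) (hu0.trans hu.1)
        (hu.2.trans hu1))
    rw [e0]
    have e1 : 1 - T / (1 + h) - (1 - T) = h * (T / (1 + h)) := by
      field_simp
      ring
    rw [e1] at h2
    exact h2

/-- **THE UPPER BOUND OF THE RELATIVE ENTROPY, FROM THE NUMBERS AT THE POINTS OF A CHOICE.**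
`hK` is the path (`H197.kup`), `hX1` the first regime, `hX2` the second regime. -/
theorem kup_n (hA : H320.Adm L) (hη1 : L.η ≤ 1 / 2) (hs : L.s ≠ 0) (hx0 : 0 < L.x)
    (hx1 : L.x < 1) {r0 : ℝ} (hc : L.c = L.s ^ 2 * L.n * (1 - (1 - L.x) * r0))
    (hk : 0 < L.b * (1 - (1 - L.x) * r0)) {m1 m2 N : ℕ} (hm1 : 1 ≤ m1)
    (hm2 : m2 < L.n) {u0 u1 : ℝ} (hu0 : 0 < u0) (hu1 : u1 ≤ 1)
    {h a w e e' e3 θ T₂ T₃ R E0 E1 G1 W2 W3 W4 : ℝ} (ha0 : 0 ≤ a) (hw : 0 < w) (hh : 0 ≤ h)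
    (hh4 : h ≤ 1 / 4) (he : 0 ≤ e) (hN : gg h (N + 1) ≤ T₂) (h23 : T₂ ≤ T₃) (h3 : T₃ ≤ 1)
    (hR : rho ((1 - h) * (L.b * L.x)) ((1 + h) * a + e) ((1 + h) * w) 0 ≤ R)
    (heh : e' + e3 ≤ h)
    (hAt : 1 - e' ≤ L.b * (1 - (1 - L.x) * r0) * (1 - T₂) ^ 2)
    (ha : 1 - 1 / (L.b * (1 - (1 - L.x) * r0)) ^ 2 ≤ (1 + h) * a + e)
    (hww : u1 * L.vp / L.b ^ 2 ≤ (1 + h) * w)
    (hθ : 0 < θ) (hθ1 : θ ≤ 1) (hG1 : 0 ≤ G1) (hE1 : 0 ≤ E1) (hW2 : 0 ≤ W2) (hW3 : 0 ≤ W3)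
    (hW4 : 0 ≤ W4) {err3 : ℝ → ℝ → ℕ → ℝ} {c3' err3' U : ℝ → ℝ → ℕ → ℝ}
    {PT : ℝ → ℝ → ℕ → Prop} (hsel : Sel h (gg h (N + 1)) T₃ u0 u1 m1 m2 PT)
    (hK : L.KA ≤ L.n * L.x ^ 2 * L.b ^ 2 / 4 * (∑ l ∈ Finset.range N,
      (gg h l - gg h (l + 1)) * L.rr (Sn L.n m2) (1 - gg h (l + 1)) u0 + E0))
    (hX1 : ∀ T, 0 < T → T ≤ T₂ → ∀ u ∈ Icc u0 u1, ∀ m ∈ Finset.Icc m1 m2,
      gg h (N + 1) ≤ (1 + h) * T → ∀ i0 : Fin L.n, i0.1 + m = L.n → PT T u m →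
      C3U L r0 (phiU L ((1 + h) * a + e) (e' + e3) u T) m (1 - T) u i0 ≤
        (L.b * (1 - (1 - L.x) * r0)) ^ 2 * (e3 * (L.b * L.x) * L.ex' (1 - T) u (fun z =>
        phiU L ((1 + h) * a + e) (e' + e3) u T (L.Q (Sn L.n m) (1 - T) u z) *
          L.Q (Sn L.n m) (1 - T) u z ^ 2)) + err3 T u m ∧
      err3 T u m / (L.b * (1 - (1 - L.x) * r0)) ^ 2 +
        XE L r0 (PU L ((1 + h) * a + e) (e' + e3) u T) (LrU L ((1 + h) * a + e) (e' + e3) u T) m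
          (1 - T) u i0 ≤ G1 ∧
      3 * θ * R ^ 2 + 4 * G1 +
        (1 + θ) * (1 + 1 / θ) * (L.η * (2 + L.η)) ^ 2 * CC L (Sn L.n m) (1 - T) u +
        (1 + 1 / θ) * L.rk (Sn L.n m) (1 - T) u ≤ E1)
    (hX2 : ∀ T, 0 < T → T ≤ T₃ → T₂ ≤ (1 + h) * T → ∀ u ∈ Icc u0 u1,
      ∀ m ∈ Finset.Icc m1 m2, ∀ i0 : Fin L.n, i0.1 + m = L.n → PT T u m →
      0 ≤ c3' T u m ∧ 0 ≤ U T u m ∧ (1 + h) * a + e + c3' T u m * U T u m ≤ T / 2 ∧
      C3U L r0 (fun _ => 1) m (1 - T) u i0 ≤ (L.b * (1 - (1 - L.x) * r0)) ^ 2 *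
        (c3' T u m * L.qq (Sn L.n m) (1 - T) u) + err3' T u m ∧
      Err2 L r0 (c3' T u m) (err3' T u m) (U T u m) m T u i0 ≤
        W2 / T ^ 2 + W3 / (T * √T) + W4 / T) :
    L.KA ≤ L.n * L.x ^ 2 * L.b ^ 2 / 4 * (J (L.b * L.x) a w +
      (7 * h * (w * R + L.b * L.x * R ^ 3) + 3 * (h * a + e) * R ^ 2 + 3 * T₂ * E1 +
      (4 * (W2 / T₂ + W2 / T₃ ^ 2) + 8 * (W3 / √T₂ + W3 / (T₃ * √T₃)) +
        4 * (W4 * Real.log (T₃ / T₂) + W4 / T₃)) + E0)) := by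
  have hn' : (0 : ℝ) < L.n := by exact_mod_cast hA.n0
  have hbx : 0 < L.b * L.x := mul_pos hA.b0 hx0
  have hb2 : 0 < L.b ^ 2 := by have := hA.b0; positivity
  have h1h : 0 < 1 + h := by linarith
  have hA' : 0 ≤ L.n * L.x ^ 2 * L.b ^ 2 / 4 := by positivity
  have hT0 : 0 < gg h (N + 1) := gg_pos hh _
  have hT2 : 0 < T₂ := hT0.trans_le hN
  have hu01' : u0 ≤ 1 := by
    obtain ⟨T', hT', u, hu, _⟩ := hsel T₂ ⟨hN, h23⟩
    exact (hu.1.trans hu.2).trans hu1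
  refine kamp_up5 (r := fun T => L.rr (Sn L.n m2) (1 - T) u0) hA' hbx hw ha0 hh hh4 he hE1
    hW2 hW3 hW4 hN h23 h3 hR
    (fun T hT T' hT' hTT => rr_mono hA.lam0 hA.η0 hA.vp0 (Finset.Subset.refl _)
      (by linarith [hT'.2]) (by linarith) (by linarith [hT.1]) hu0.le le_rfl hu01')
    (fun T hT => rr_nonneg hA.lam0 hA.η0) hK (fun T hT => ?_) (fun T hT => ?_)
  · obtain ⟨T', hT', u, hu, m, hm, hP⟩ := hsel T ⟨hT.1, hT.2.trans h23⟩
    have hTp : 0 < T := hT0.trans_le hT.1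
    have hT'p : 0 < T' := lt_of_lt_of_le (by positivity) hT'.1
    have hT'2 : T' ≤ T₂ := hT'.2.trans hT.2
    have hT'1 : T' ≤ 1 := hT'2.trans (h23.trans h3)
    have hmI := Finset.mem_Icc.1 hm
    have hmn : m < L.n := hmI.2.trans_lt hm2
    have hup : 0 < u := hu0.trans_le hu.1
    have hul : u ≤ 1 := hu.2.trans hu1
    have hi0 : L.n - m < L.n := by omega
    have hTT : gg h (N + 1) ≤ (1 + h) * T' := by
      have h4 := hT'.1
      rw [div_le_iff₀ h1h] at h4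
      linarith [hT.1]
    obtain ⟨x1, x2, x3⟩ := hX1 T' hT'p hT'2 u hu m hm hTT ⟨L.n - m, hi0⟩
      (by show L.n - m + m = L.n; omega) hP
    refine ⟨T', hT', ?_⟩
    have hmo : L.rr (Sn L.n m2) (1 - T') u0 ≤ L.rr (Sn L.n m) (1 - T') u :=
      rr_mono hA.lam0 hA.η0 hA.vp0 (Sn_anti hmI.2) (by linarith) le_rfl (by linarith) hu0.le
        hu.1 hul
    refine hmo.trans ?_
    have hAt' : 1 - e' ≤ L.b * (1 - (1 - L.x) * r0) * (1 - T') ^ 2 := by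
      refine hAt.trans (mul_le_mul_of_nonneg_left ?_ hk.le)
      exact pow_le_pow_left₀ (by linarith) (by linarith) 2
    have huv : u * L.vp / L.b ^ 2 ≤ u1 * L.vp / L.b ^ 2 :=
      div_le_div_of_nonneg_right (mul_le_mul_of_nonneg_right hu.2 hA.vp0.le) hb2.le
    have key := rr_up hA hη1 hs hx0 hx1 hc hk hmn hT'1 hup (i0 := ⟨L.n - m, hi0⟩)
      (by show L.n - m + m = L.n; omega) (a1 := (1 + h) * a + e) (e' := e') (e3 := e3)
      (err3 := err3 T' u m) hAt' ha (by linarith) hθ hθ1 x1 (c2 := (1 - h) * (L.b * L.x))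
      (a2 := (1 + h) * a + e) (w2 := (1 + h) * w) (mul_pos (by linarith) hbx)
      (mul_le_mul_of_nonneg_right (by linarith) hbx.le) le_rfl (huv.trans hww) hG1 x2
    refine key.trans ?_
    have hρ0 : 0 < rho ((1 - h) * (L.b * L.x)) ((1 + h) * a + e) ((1 + h) * w) T' :=
      rho_pos (mul_pos (by linarith) hbx) (mul_pos h1h hw)
    have hρ : rho ((1 - h) * (L.b * L.x)) ((1 + h) * a + e) ((1 + h) * w) T' ≤ R :=
      (rho_anti (mul_pos (by linarith) hbx) (mul_pos h1h hw) hT'p.le).trans hR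
    have hsq := pow_le_pow_left₀ hρ0.le hρ 2
    have h5 := mul_le_mul_of_nonneg_left hsq (show (0 : ℝ) ≤ 3 * θ by linarith)
    linarith
  · obtain ⟨T', hT', u, hu, m, hm, hP⟩ := hsel T ⟨hN.trans hT.1, hT.2⟩
    have hTp : 0 < T := hT2.trans_le hT.1
    have hT'p : 0 < T' := lt_of_lt_of_le (by positivity) hT'.1
    have hT'3 : T' ≤ T₃ := hT'.2.trans hT.2
    have hT'1 : T' ≤ 1 := hT'3.trans h3
    have hmI := Finset.mem_Icc.1 hm
    have hmn : m < L.n := hmI.2.trans_lt hm2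
    have hup : 0 < u := hu0.trans_le hu.1
    have hul : u ≤ 1 := hu.2.trans hu1
    have hi0 : L.n - m < L.n := by omega
    have hTT : T₂ ≤ (1 + h) * T' := by
      have h4 := hT'.1
      rw [div_le_iff₀ h1h] at h4
      linarith [hT.1]
    obtain ⟨x1, x2, x3, x4, x5⟩ := hX2 T' hT'p hT'3 hTT u hu m hm ⟨L.n - m, hi0⟩
      (by show L.n - m + m = L.n; omega) hP
    refine ⟨T', hT', ?_⟩
    have hmo : L.rr (Sn L.n m2) (1 - T') u0 ≤ L.rr (Sn L.n m) (1 - T') u :=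
      rr_mono hA.lam0 hA.η0 hA.vp0 (Sn_anti hmI.2) (by linarith) le_rfl (by linarith) hu0.le
        hu.1 hul
    refine hmo.trans ?_
    exact (rr_up2 hA hη1 hs hx0 hx1 hc hk hmn hT'p hT'1 hup (i0 := ⟨L.n - m, hi0⟩)
      (by show L.n - m + m = L.n; omega) x2 x1 ha x3 x4).trans x5

end point

end Vale.Agent.P146.H75
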