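import Vale.Agent.P146.H698.FoDef
import Vale.Agent.P146.H529.LinkAP

/-!
# P146: the near part of LC from the bound with two exponents

`PsiUp b p A`: the upper bound (Guerra, share `T` of the bonds at the exponent `m`, plain field of
variance `V` at the exponent `y`). `LawLow b p A b₁`: the sharp lower law without field.
`near_V`: the bracket of the near part is at most `ε n y ^ 6` if the response over `(0, V)` is not
much below the critical one.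
-/

open MeasureTheory ProbabilityTheory Filter Topology Set

namespace Vale.Agent.P146.H75.W

open Vale.Agent.P146.H9 (Phn KV)
open Vale.Agent.P146.H529 (ev_rpow)
open Vale.Agent.P146.H698.FO (PsiV PsiT)

/-- the upper bound with two exponents -/
def PsiUp (b p A : ℝ) : Prop := ∀ ε : ℝ, 0 < ε → ∃ c C : ℝ, 0 < c ∧ 0 ≤ C ∧
  ∀ n : ℕ, 1 ≤ n → ∀ y : ℝ, 0 < y → y ≤ c → ∃ m : ℝ, 1.4 * y ≤ m ∧ m ≤ 2.02 * y ∧
    ∀ T V : ℝ, 0 ≤ T → T ≤ 1 / 2 → 0 ≤ V → V ≤ c * y →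
      PsiV n b V y m T ≤
        n * (p + (A + ε) * y ^ 5 + V / (2 * b) + C * (V * y ^ 2 + V ^ 2 + T * y ^ 3))

/-- the lower law without field -/
def LawLow (b p A b₁ : ℝ) : Prop := ∀ ε : ℝ, 0 < ε → ∃ δ : ℝ, 0 < δ ∧ ∀ᶠ n : ℕ in atTop,
  ∀ y : ℝ, (n : ℝ) ^ (-b₁) ≤ y → y ≤ δ → n * (p + (A - ε) * y ^ 5) ≤ Phn n b y 0

/-- the slope in the variance of the field is at most `n / 2` -/
lemma Phn_lip {n : ℕ} {b y v V : ℝ} (hy : 0 < y) (hy1 : y ≤ 1)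
    (hcv : ConcaveOn ℝ (Ici 0) (Phn n b y)) (hv : 0 ≤ v) (hvV : v ≤ V) :
    Phn n b y V ≤ Phn n b y v + n * (V - v) / 2 := by
  rcases hv.eq_or_lt with h0 | h0
  · rw [← h0, sub_zero]
    exact H9.Phn_le n b hy hy1 (hv.trans hvV)
  rcases hvV.eq_or_lt with h1 | h1
  · rw [h1, sub_self, mul_zero, zero_div, add_zero]
  have h2 := H9.Phn_le n b hy hy1 hv
  have h3 := hcv.slope_anti_adjacent (x := 0) (y := v) (z := V) (by simp) (by simp; linarith) h0 h1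
  rw [sub_zero] at h3
  have h4 : (Phn n b y v - Phn n b y 0) / v ≤ n / 2 := by
    rw [div_le_iff₀ h0]
    linarith
  have h5 := h3.trans h4
  rw [div_le_iff₀ (by linarith)] at h5
  linarith

/-- the arithmetic of the bracket -/
lemma near_num {N p A ε1 κ y V W s2 η C T b m psi phW phV ph0 ε D : ℝ} (hN : 0 < N) (hy : 0 < y)
    (hm1 : 1.4 * y ≤ m) (hC : 0 ≤ C) (hW : W = V - s2) (hs2 : 0 ≤ s2)
    (hsV : s2 ≤ V) (hb : 0 < b) (hη0 : 0 ≤ η) (hη1 : η ≤ 1)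
    (h1 : psi ≤ N * (p + (A + ε1) * y ^ 5 + W / (2 * b) + C * (W * y ^ 2 + W ^ 2 + T * y ^ 3)))
    (h2 : phV ≤ phW + N * s2 / 2) (h3 : N * V / (2 * b) ≤ phV - ph0 + κ * (N * y ^ 5))
    (h4 : N * (p + (A - ε1) * y ^ 5) ≤ ph0) (hD1 : C * V ≤ D * y ^ 3) (hD2 : C * V ^ 2 ≤ D * y ^ 5)
    (hD3 : C * T ≤ D * y ^ 2) (hD4 : 4 * s2 ≤ D * y ^ 5) (hε : 5 * (2 * ε1 + κ + 4 * D) ≤ ε)
    (hε1 : 0 ≤ ε1) (hκ : 0 ≤ κ) (hD : 0 ≤ D) :
    y * m / (m - y) * (psi - phW + N * (s2 * (1 + η) ^ 2) / 2) ≤ ε * (N * y ^ 6) := by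
  have hmy : 0.4 * y ≤ m - y := by linarith
  have hmy0 : 0 < m - y := by
    have : 0 < 0.4 * y := by positivity
    linarith
  have hm0 : 0 < m := by
    have : 0 < 1.4 * y := by positivity
    linarith
  have k1 : y * m / (m - y) ≤ 5 * y := by
    rw [div_le_iff₀ hmy0]
    have h6 : y * m ≤ y * (5 * (m - y)) := mul_le_mul_of_nonneg_left (by linarith) hy.le
    linarith [show 5 * y * (m - y) = y * (5 * (m - y)) by ring]
  have k0 : 0 ≤ y * m / (m - y) := by positivity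
  have hWV : W ≤ V := by linarith
  have hW0 : 0 ≤ W := by linarith
  have hWb : W / (2 * b) ≤ V / (2 * b) := div_le_div_of_nonneg_right hWV (by positivity)
  have e1 : C * (W * y ^ 2) ≤ D * y ^ 5 := by
    calc C * (W * y ^ 2) ≤ C * (V * y ^ 2) := by gcongr
      _ = C * V * y ^ 2 := by ring
      _ ≤ D * y ^ 3 * y ^ 2 := mul_le_mul_of_nonneg_right hD1 (sq_nonneg y)
      _ = D * y ^ 5 := by ring
  have e2 : C * W ^ 2 ≤ D * y ^ 5 := by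
    have : W ^ 2 ≤ V ^ 2 := pow_le_pow_left₀ hW0 hWV 2
    exact (mul_le_mul_of_nonneg_left this hC).trans hD2
  have e3 : C * (T * y ^ 3) ≤ D * y ^ 5 := by
    calc C * (T * y ^ 3) = C * T * y ^ 3 := by ring
      _ ≤ D * y ^ 2 * y ^ 3 := mul_le_mul_of_nonneg_right hD3 (by positivity)
      _ = D * y ^ 5 := by ring
  have e4 : s2 / 2 + s2 * (1 + η) ^ 2 / 2 ≤ D * y ^ 5 := by
    have : (1 + η) ^ 2 ≤ 4 := by nlinarith
    have h5 : s2 * (1 + η) ^ 2 ≤ s2 * 4 := mul_le_mul_of_nonneg_left this hs2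
    linarith
  have k2 : psi - phW + N * (s2 * (1 + η) ^ 2) / 2 ≤ N * ((2 * ε1 + κ + 4 * D) * y ^ 5) := by
    have g1 : psi ≤ N * (p + (A + ε1) * y ^ 5 + V / (2 * b) + 3 * (D * y ^ 5)) := by
      refine h1.trans (mul_le_mul_of_nonneg_left ?_ hN.le)
      have e5 : C * (W * y ^ 2 + W ^ 2 + T * y ^ 3) =
        C * (W * y ^ 2) + C * W ^ 2 + C * (T * y ^ 3) := by ring
      rw [e5]
      linarith
    have g2 : N * (s2 / 2 + s2 * (1 + η) ^ 2 / 2) ≤ N * (D * y ^ 5) :=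
      mul_le_mul_of_nonneg_left e4 hN.le
    have g3 : N * V / (2 * b) = N * (V / (2 * b)) := by ring
    rw [g3] at h3
    nlinarith [g1, g2, h2, h3, h4]
  calc y * m / (m - y) * (psi - phW + N * (s2 * (1 + η) ^ 2) / 2)
      ≤ y * m / (m - y) * (N * ((2 * ε1 + κ + 4 * D) * y ^ 5)) :=
        mul_le_mul_of_nonneg_left k2 k0
    _ ≤ ε * (N * y ^ 6) := by
        calc y * m / (m - y) * (N * ((2 * ε1 + κ + 4 * D) * y ^ 5))
            ≤ 5 * y * (N * ((2 * ε1 + κ + 4 * D) * y ^ 5)) :=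
              mul_le_mul_of_nonneg_right k1 (by positivity)
          _ = 5 * (2 * ε1 + κ + 4 * D) * (N * y ^ 6) := by ring
          _ ≤ ε * (N * y ^ 6) := mul_le_mul_of_nonneg_right hε (by positivity)

lemma rpow_key {n : ℕ} (hn0 : (0 : ℝ) < n) {e x z : ℝ} (hz : 0 < z) (h : x / z ≤ (n : ℝ) ^ e) :
    (n : ℝ) ^ (-e) * x ≤ z := by
  rw [Real.rpow_neg hn0.le, inv_mul_le_iff₀ (Real.rpow_pos_of_pos hn0 _)]
  rwa [div_le_iff₀ hz] at h

/-- the numbers of the window; `r0, r1, r2` are the small powers -/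
lemma near_sizes {y A' C D c V s2 T r0 r1 r2 : ℝ} (hy : 0 < y) (hy2 : y ≤ 1 / 2) (hA : 1 ≤ A')
    (hC : 0 ≤ C) (hD : 0 < D) (hr0 : 0 < r0) (hr01 : r0 ≤ 1) (hr1 : 0 < r1)
    (b1 : r0 * ((C + 1) * A' ^ 2) ≤ D) (b2 : r0 * A' ≤ c) (b3 : r1 * ((C + 1) * A') ≤ D)
    (b4 : r1 * (2 * A') ≤ 1) (b5 : r2 * (4 * A') ≤ D) (hV : 0 ≤ V)
    (hV2 : V ≤ A' * (r0 * y ^ 3)) (hs : s2 ≤ A' * (r2 * y ^ 5)) (hs0 : 0 ≤ s2) (hc : 0 < c)
    (hT2 : T ≤ A' * (r1 * y ^ 2)) :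
    T ≤ 1 / 2 ∧ V - s2 ≤ c * y ∧ C * V ≤ D * y ^ 3 ∧ C * V ^ 2 ≤ D * y ^ 5 ∧ C * T ≤ D * y ^ 2 ∧
      4 * s2 ≤ D * y ^ 5 := by
  have hy3 : 0 < y ^ 3 := by positivity
  have hy5 : 0 < y ^ 5 := by positivity
  have hC1 : 0 < C + 1 := by linarith only [hC]
  have hA0 : 0 < A' := by linarith only [hA]
  have hy1 : y ≤ 1 := by linarith only [hy2]
  have hA2 : A' ≤ A' ^ 2 := by
    rw [sq]
    exact le_mul_of_one_le_left hA0.le hA
  have hy21 : y ^ 2 ≤ 1 := pow_le_one₀ hy.le hy1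
  refine ⟨?_, ?_, ?_, ?_, ?_, ?_⟩
  · calc T ≤ A' * (r1 * y ^ 2) := hT2
      _ ≤ A' * (r1 * 1) := by gcongr
      _ ≤ 1 / 2 := by linarith only [b4]
  · have hy31 : y ^ 3 ≤ y := by
      calc y ^ 3 = y * y ^ 2 := by ring
        _ ≤ y * 1 := mul_le_mul_of_nonneg_left hy21 hy.le
        _ = y := mul_one y
    calc V - s2 ≤ V := by linarith only [hs0]
      _ ≤ A' * (r0 * y ^ 3) := hV2
      _ = r0 * A' * y ^ 3 := by ring
      _ ≤ c * y := mul_le_mul b2 hy31 hy3.le hc.le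
  · calc C * V ≤ (C + 1) * (A' * (r0 * y ^ 3)) :=
          mul_le_mul (by linarith only [hC]) hV2 hV hC1.le
      _ = r0 * ((C + 1) * A') * y ^ 3 := by ring
      _ ≤ r0 * ((C + 1) * A' ^ 2) * y ^ 3 := by gcongr
      _ ≤ D * y ^ 3 := mul_le_mul_of_nonneg_right b1 hy3.le
  · have hV3 : V ^ 2 ≤ (A' * (r0 * y ^ 3)) ^ 2 := pow_le_pow_left₀ hV hV2 2
    have hy61 : y ^ 6 ≤ y ^ 5 := pow_le_pow_of_le_one hy.le hy1 (by norm_num)
    calc C * V ^ 2 ≤ (C + 1) * (A' * (r0 * y ^ 3)) ^ 2 :=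
          mul_le_mul (by linarith only [hC]) hV3 (sq_nonneg V) hC1.le
      _ = r0 * ((C + 1) * A' ^ 2) * (r0 * y ^ 6) := by ring
      _ ≤ D * (1 * y ^ 5) := mul_le_mul b1 (mul_le_mul hr01 hy61 (by positivity) zero_le_one)
          (by positivity) hD.le
      _ = D * y ^ 5 := by ring
  · calc C * T ≤ C * (A' * (r1 * y ^ 2)) := mul_le_mul_of_nonneg_left hT2 hC
      _ ≤ (C + 1) * (A' * (r1 * y ^ 2)) :=
          mul_le_mul_of_nonneg_right (by linarith only []) (by positivity)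
      _ = r1 * ((C + 1) * A') * y ^ 2 := by ring
      _ ≤ D * y ^ 2 := mul_le_mul_of_nonneg_right b3 (sq_nonneg y)
  · calc 4 * s2 ≤ 4 * (A' * (r2 * y ^ 5)) := mul_le_mul_of_nonneg_left hs (by norm_num)
      _ = r2 * (4 * A') * y ^ 5 := by ring
      _ ≤ D * y ^ 5 := mul_le_mul_of_nonneg_right b5 hy5.le

/-- **The near part.** -/
theorem near_V {b p A b₁ b₀ d0 k c1 : ℝ} (hb : 1 < b) (hP : PsiUp b p A) (hL : LawLow b p A b₁)
    (hb₀ : 0 < b₀) (hd0 : 0 < d0) (hk : 0 < k) (hc1 : 0 < c1) : ∀ ε : ℝ, 0 < ε →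
    ∃ κ : ℝ, 0 < κ ∧ ∀ A' : ℝ, 1 ≤ A' → ∀ᶠ n : ℕ in atTop, ∀ y : ℝ, (n : ℝ) ^ (-b₁) ≤ y →
      y ≤ 2 * (n : ℝ) ^ (-b₀) → ∃ m : ℝ, y < m ∧ m ≤ 2.02 * y ∧ ∀ V s η T : ℝ, 0 ≤ V →
        V ≤ A' * ((n : ℝ) ^ (-d0) * y ^ 3) → s ^ 2 ≤ A' * ((n : ℝ) ^ (-k) * y ^ 5) → s ^ 2 ≤ V →
        0 ≤ η → η ≤ 1 → 0 ≤ T → T ≤ A' * ((n : ℝ) ^ (-c1) * y ^ 2) →
        n * V / (2 * b) ≤ Phn n b y V - Phn n b y 0 + κ * (n * y ^ 5) →
        y * m / (m - y) * (PsiV n b (V - s ^ 2) y m T - Phn n b y (V - s ^ 2) +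
          n * (s ^ 2 * (1 + η) ^ 2) / 2) ≤ ε * (n * y ^ 6) := by
  intro ε hε
  have hb0 : 0 < b := by linarith only [hb]
  obtain ⟨c, C, hc, hC, hpsi⟩ := hP (ε / 60) (by positivity)
  obtain ⟨δ, hδ, hlow⟩ := hL (ε / 60) (by positivity)
  obtain ⟨D, hD⟩ : ∃ D, D = ε / 60 := ⟨_, rfl⟩
  have hD0 : 0 < D := by rw [hD]; positivity
  refine ⟨ε / 60, by positivity, fun A' hA' => ?_⟩
  have hA0 : 0 < A' := by linarith only [hA']
  filter_upwards [hlow, eventually_ge_atTop 1, ev_rpow hb₀ (2 / c), ev_rpow hb₀ (2 / δ),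
    ev_rpow hb₀ (4 / 1), ev_rpow hd0 ((C + 1) * A' ^ 2 / D), ev_rpow hd0 (A' / c),
    ev_rpow hc1 ((C + 1) * A' / D), ev_rpow hc1 (2 * A' / 1),
    ev_rpow hk (4 * A' / D)] with n g1 g2 g3 g4 g5 g6 g7 g8 g9 g10 y hy hy1
  have hn1 : (1 : ℝ) ≤ n := by exact_mod_cast g2
  have hn0 : (0 : ℝ) < n := by linarith only [hn1]
  have hy0 : 0 < y := lt_of_lt_of_le (Real.rpow_pos_of_pos hn0 _) hy
  have hyc : y ≤ c := by
    have h1 := rpow_key hn0 hc g3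
    linarith only [h1, hy1]
  have hyδ : y ≤ δ := by
    have h1 := rpow_key hn0 hδ g4
    linarith only [h1, hy1]
  have hy2 : y ≤ 1 / 2 := by
    have h1 := rpow_key hn0 one_pos g5
    linarith only [h1, hy1]
  obtain ⟨m, hm1, hm2, hm⟩ := hpsi n g2 y hy0 hyc
  refine ⟨m, by linarith only [hm1, hy0], hm2, fun V s η T hV hV2 hs hsV hη hη1 hT hT2 hresp => ?_⟩
  obtain ⟨hT1, hVc, q1, q2, q3, q4⟩ := near_sizes (s2 := s ^ 2) hy0 hy2 hA' hC hD0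
    (Real.rpow_pos_of_pos hn0 (-d0))
    (Real.rpow_le_one_of_one_le_of_nonpos hn1 (by linarith only [hd0]))
    (Real.rpow_pos_of_pos hn0 (-c1)) (rpow_key hn0 hD0 g6) (rpow_key hn0 hc g7)
    (rpow_key hn0 hD0 g8) (rpow_key hn0 one_pos g9) (rpow_key hn0 hD0 g10) hV hV2 hs
    (sq_nonneg s) hc hT2
  have hcv := H320.Conc.Phn_conc n b hy0 (show y ≤ 1 by linarith only [hy2])
  have hW : 0 ≤ V - s ^ 2 := by linarith only [hsV]
  have h1 := hm T (V - s ^ 2) hT hT1 hW hVc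
  have h2 := Phn_lip (v := V - s ^ 2) (V := V) hy0 (by linarith only [hy2]) hcv hW
    (by linarith only [sq_nonneg s])
  rw [show V - (V - s ^ 2) = s ^ 2 by ring] at h2
  have h4 := g1 y hy hyδ
  exact near_num hn0 hy0 hm1 hC rfl (sq_nonneg s) hsV hb0 hη hη1 h1 h2 hresp h4
    q1 q2 q3 q4 (by rw [hD]; linarith only [hε]) (by positivity) (by positivity) hD0.le

end Vale.Agent.P146.H75.W
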