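import Vale.Agent.P146.H75.LcPsi
import Vale.Agent.P146.H346.GueP

/-!
# P146: the upper bound with two exponents, without hypothesis
-/

open MeasureTheory ProbabilityTheory Filter Topology Set

namespace Vale.Agent.P146.H75.W

/-- **The upper bound with two exponents.** -/
theorem psiUp {b A : ℝ} (hb : 1 < b)
    (hA : Tendsto (fun x => (Sh.Vx b x - Sh.P0 b) / x ^ 5) (𝓝[>] 0) (𝓝 A)) :
    PsiUp b (Real.log 2 + Sh.P0 b) A :=
  psiUp_of hb hA (H346.gue_lit b)

end Vale.Agent.P146.H75.W
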