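import Vale.Agent.P146.H75.LcLink
import Vale.Agent.P146.H698.Kgrid

/-!
# P146: the literal of LC for the amplitude law, free parameters

`LCampL` is helper877's literal (board): the entropy of the amplitude law is small for all
parameters `s`, `lam`, `η` in a box. `lcin_of_L` gives the input `H892.LCin` of the anchor.
-/

open MeasureTheory ProbabilityTheory Filter Topology Set

namespace Vale.Agent.P146.H75

open Vale.Agent.P146.H9 (Phn KV)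
open Vale.Agent.P146.H529 (SG cc Fsk)
open Vale.Agent.P146.H178 (AP UpK)
open Vale.Agent.P146.H698 (KAc)

/-- LC for the amplitude law, for all parameters in a box -/
def LCampL (β b₁ b₀ d0 sg s0 k1 k2 ce cl : ℝ) : Prop := ∀ A : ℝ, 1 ≤ A → ∀ ε : ℝ, 0 < ε →
  ∀ᶠ n : ℕ in atTop, ∀ y V s lam η a : ℝ, (n : ℝ) ^ (-b₁) ≤ A * y → y ≤ A * (n : ℝ) ^ (-b₀) →
    y ^ 5 ≤ A * V → V ≤ A * ((n : ℝ) ^ (-d0) * y ^ 3) → 0 < s → (n : ℝ) ^ (-k2) * y ^ 5 ≤ s ^ 2 →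
    s ^ 2 ≤ (n : ℝ) ^ (-k1) * y ^ 5 → 0 < η → η ≤ (n : ℝ) ^ (-ce) →
    (n : ℝ) ^ cl ≤ y * (lam * η) → y * (lam * η) ≤ (n : ℝ) ^ (2 * cl) → SG n β y V a →
    a ≤ A * ((n : ℝ) ^ (-sg) * y ^ 2) → AP β s0 n y (2 * V) →
    KAc n β (V - s ^ 2) s lam η (cc n β s a) y ≤ ε * (n * y ^ 6)

theorem lcamp_of_L {β b₁ b₀ d0 sg s0 k1 k2 k ce cl : ℝ} (h1 : k1 ≤ k) (h2 : k ≤ k2)
    (hcl : 0 ≤ cl) (h : LCampL β b₁ b₀ d0 sg s0 k1 k2 ce cl) :
    LCamp β b₁ b₀ d0 sg s0 k ce cl := by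
  intro A hA ε hε
  filter_upwards [h (2 * A) (by linarith) ε hε, eventually_ge_atTop 1] with n hn hn1 y hy hy1 V
    hV hV2 hap a hsg ha
  have hn1' : (1 : ℝ) ≤ n := by exact_mod_cast hn1
  have hn0 : (0 : ℝ) < n := by linarith
  have hy0 : 0 < y := lt_of_lt_of_le (Real.rpow_pos_of_pos hn0 _) hy
  have hV0 : 0 < V := by
    have h5 : 0 < y ^ 5 := by positivity
    exact (mul_pos_iff_of_pos_left (show 0 < A by linarith)).1 (lt_of_lt_of_le h5 hV)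
  have hb0 : 0 < (n : ℝ) ^ (-b₀) := Real.rpow_pos_of_pos hn0 _
  have hs2 : sL k n y ^ 2 = (n : ℝ) ^ (-k) * y ^ 5 := by
    unfold sL
    rw [Real.sq_sqrt (by positivity)]
  have hs0 : 0 < sL k n y := Real.sqrt_pos.2 (by positivity)
  have heta : 0 < etaL ce n := Real.rpow_pos_of_pos hn0 _
  have e : y * (lamL cl ce n y * etaL ce n) = (n : ℝ) ^ cl := by
    unfold lamL etaL
    rw [div_mul_eq_mul_div, ← Real.rpow_add hn0, mul_div_cancel₀ _ hy0.ne']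
    congr 1
    ring
  have hy5 : 0 ≤ y ^ 5 := by positivity
  have g1 : 0 ≤ A * V := mul_nonneg (by linarith) hV0.le
  have g2 : 0 ≤ A * ((n : ℝ) ^ (-d0) * y ^ 3) := by positivity
  have g3 : 0 ≤ A * ((n : ℝ) ^ (-sg) * y ^ 2) := by positivity
  have g4 : y ≤ 2 * A * y := le_mul_of_one_le_left hy0.le (by linarith)
  have g5 : 2 * (n : ℝ) ^ (-b₀) ≤ 2 * A * (n : ℝ) ^ (-b₀) :=
    mul_le_mul_of_nonneg_right (by linarith) hb0.le
  exact hn y V (sL k n y) (lamL cl ce n y) (etaL ce n) a (by linarith) (by linarith)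
    (by linarith) (by linarith) hs0
    (by
      rw [hs2]
      exact mul_le_mul_of_nonneg_right
        (Real.rpow_le_rpow_of_exponent_le hn1' (by linarith)) hy5)
    (by
      rw [hs2]
      exact mul_le_mul_of_nonneg_right
        (Real.rpow_le_rpow_of_exponent_le hn1' (by linarith)) hy5)
    heta le_rfl (by rw [e]) (by
      rw [e]
      exact Real.rpow_le_rpow_of_exponent_le hn1' (by linarith)) hsg (by linarith) hap

/-- **The input of the anchor from LC for the amplitude law.** -/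
theorem lcin_of_L {β b₁ b₀ d0 sg s0 k1 k2 ce cl : ℝ} (hβ : 1 < β) (hK : UpK β) (hb₀ : 0 < b₀)
    (hb₁ : b₁ < 1 / 6) (hb : b₀ ≤ b₁) (hd0 : 0 < d0) (hs0 : 0 < s0) (hs : 0 < sg) (hk1 : 0 < k1)
    (hk : k1 ≤ k2) (hce : 0 < ce) (hcl : 0 ≤ cl) (h1 : sg + s0 + 8 * b₁ < 1)
    (h2 : sg + 2 * s0 + 2 * b₁ < k2 + ce) (h : LCampL β b₁ b₀ d0 sg s0 k1 k2 ce cl) :
    H892.LCin β b₁ b₀ d0 sg (fun n x v => Phn n β x v) (fun n x v => KV n β x v) :=
  lc_of_amp hβ hK hb₀ hb₁ hb hd0 hs0 hs (hk1.trans_le hk) hce hcl h1 h2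
    (lcamp_of_L hk le_rfl hcl h)

end Vale.Agent.P146.H75
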