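import Vale.Agent.P146.H75.LcLink

/-!
# P146: the input of the weak anchor from the amplitude law

`LCw` is the input of the descending anchor with the lower bound of the response over `(0, V)`
as an additional hypothesis, for the natural functional; `LCampW` is the corresponding statement
for the amplitude law with its own slope. `lcw_of_amp : LCampW → LCw`.
-/

open MeasureTheory ProbabilityTheory Filter Topology Set

namespace Vale.Agent.P146.H75.W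

open Vale.Agent.P146.H122 (Asec At)
open Vale.Agent.P146.H9 (Phn KV)
open Vale.Agent.P146.H529 (SG cc Fsk exists_SG ev_rpow link_up_ap)
open Vale.Agent.P146.H178 (AP UpK Ccv ap_of_nm ap_triv)
open Vale.Agent.P146.H425 (KL)

/-- The entropy is small if the response is small; the a-priori information is the history, and
the response over `(0, V)` is not much below the critical one. -/
def LCw (β b₁ b₀ d0 s : ℝ) (Φ K : ℕ → ℝ → ℝ → ℝ) : Prop := ∀ ε : ℝ, 0 < ε → ∃ κ : ℝ, 0 < κ ∧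
  ∀ A : ℝ, 1 ≤ A → ∀ᶠ n : ℕ in atTop, ∀ y : ℝ, (n : ℝ) ^ (-b₁) ≤ y → y ≤ (n : ℝ) ^ (-b₀) →
    ∀ V : ℝ, y ^ 5 ≤ A * V → V ≤ A * ((n : ℝ) ^ (-d0) * y ^ 3) →
    (2 * V ≤ A * y ^ 5 ∨ ∃ z ∈ Icc y (2 * y), 1 ≤ At β Φ n z (2 * V)) →
    n * V / (2 * β) ≤ Φ n y V - Φ n y 0 + κ * (n * y ^ 5) →
    (∃ w : ℝ, 0 ≤ w ∧ 2 * w ≤ V ∧ Asec β Φ n y w V ≤ 1 + A * ((n : ℝ) ^ (-s) * y ^ 2)) →
    K n y V ≤ ε * (n * y ^ 6)

/-- The entropy of the amplitude law is small if its own tangent is small and the response over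
`(0, V)` is not much below the critical one. -/
def LCampW (β b₁ b₀ d0 s s0 k ce cl : ℝ) : Prop := ∀ ε : ℝ, 0 < ε → ∃ κ : ℝ, 0 < κ ∧
  ∀ A : ℝ, 1 ≤ A → ∀ᶠ n : ℕ in atTop, ∀ y : ℝ, (n : ℝ) ^ (-b₁) ≤ y → y ≤ 2 * (n : ℝ) ^ (-b₀) →
    ∀ V : ℝ, y ^ 5 ≤ A * V → V ≤ A * ((n : ℝ) ^ (-d0) * y ^ 3) → AP β s0 n y (2 * V) →
    n * V / (2 * β) ≤ Phn n β y V - Phn n β y 0 + κ * (n * y ^ 5) →
    ∀ a : ℝ, SG n β y V a → a ≤ A * ((n : ℝ) ^ (-s) * y ^ 2) →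
    KampL β k ce cl n y V a ≤ ε * (n * y ^ 6)

/-- the response over `(0, V)` at the exponent `y (1 + θ)` -/
lemma resp_shift {β : ℝ} {n : ℕ} (hn : 1 ≤ n) {y θ V s0 κ τ : ℝ} (hy : 0 < y)
    (hθ : 0 < θ) (hκ : 0 < κ) (hV : 0 ≤ V) (hap : AP β s0 n (y * (1 + θ)) (2 * V))
    (h : n * V / (2 * β) ≤ Phn n β y V - Phn n β y 0 + κ / 2 * (n * y ^ 5))
    (hτ : (n : ℝ) ^ s0 * θ ≤ (n : ℝ) ^ (-τ)) (g : 2 / κ ≤ (n : ℝ) ^ τ) :
    n * V / (2 * β) ≤ Phn n β (y * (1 + θ)) V - Phn n β (y * (1 + θ)) 0 +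
      κ * (n * (y * (1 + θ)) ^ 5) := by
  have hn0 : (0 : ℝ) < n := by exact_mod_cast hn
  obtain ⟨y', hy'⟩ : ∃ y', y' = y * (1 + θ) := ⟨_, rfl⟩
  rw [← hy'] at hap ⊢
  have hyθ : 0 < y * θ := mul_pos hy hθ
  have hyy : y ≤ y' := by rw [hy']; linarith
  have hy'0 : 0 < y' := hy.trans_le hyy
  have h1 := H178.Phn_mono n β V hy hyy
  have h2 := (H9.Phn_sub_bd n β 0 hy hyy).2
  have h3 := hap.kk 0 le_rfl (by linarith)
  have e1 : 1 / y - 1 / y' = θ / y' := by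
    rw [hy']
    field_simp
    ring
  rw [e1] at h2
  have h4 : KV n β y' 0 * (θ / y') ≤ κ / 2 * (n * y' ^ 5) := by
    have h5 : (n : ℝ) ^ s0 * θ ≤ κ / 2 := by
      refine hτ.trans ?_
      rw [Real.rpow_neg hn0.le, inv_le_comm₀ (Real.rpow_pos_of_pos hn0 _) (by positivity),
        inv_div]
      exact g
    calc KV n β y' 0 * (θ / y') ≤ ((n : ℝ) ^ (1 + s0) * y' ^ 6) * (θ / y') :=
          mul_le_mul_of_nonneg_right h3 (by positivity)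
      _ = ((n : ℝ) ^ s0 * θ) * (n * y' ^ 5) := by
          rw [Real.rpow_add hn0, Real.rpow_one]
          field_simp
      _ ≤ κ / 2 * (n * y' ^ 5) := mul_le_mul_of_nonneg_right h5 (by positivity)
  have h6 : κ / 2 * (n * y ^ 5) ≤ κ / 2 * (n * y' ^ 5) := by
    have := pow_le_pow_left₀ hy.le hyy 5
    gcongr
  linarith

/-- **Weak LC for the natural functional from weak LC for the amplitude law.** -/
theorem lcw_of_amp {β b₁ b₀ d0 s s0 k ce cl : ℝ} (hβ : 1 < β) (hK : UpK β) (hb₀ : 0 < b₀)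
    (_hb₁ : b₁ < 1 / 6) (hb : b₀ ≤ b₁) (hd0 : 0 < d0) (hs0 : 0 < s0) (hs : 0 < s) (hk : 0 < k)
    (hce : 0 < ce) (hcl : 0 ≤ cl) (h1 : s + s0 + 8 * b₁ < 1) (h2 : s + 2 * s0 + 2 * b₁ < k + ce)
    (hA : LCampW β b₁ b₀ d0 s s0 k ce cl) :
    LCw β b₁ b₀ d0 s (fun n x v => Phn n β x v) (fun n x v => KV n β x v) := by
  intro ε hε
  obtain ⟨κ, hκ, hA⟩ := hA (ε / 128) (by positivity)
  refine ⟨κ / 2, by positivity, fun A hA1 => ?_⟩
  have hβ0 : 0 < β := by linarith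
  have hA0 : 0 < A := by linarith
  have hb₁0 : 0 < b₁ := hb₀.trans_le hb
  have hcv : Ccv β := fun n _ x hx hx2 => H320.Conc.Phn_conc n β hx (by linarith)
  -- the exponents of the shift
  obtain ⟨τ, hτ0, hτ1, hτ2⟩ : ∃ τ : ℝ, 0 < τ ∧ 4 * τ ≤ 1 - (s + s0 + 8 * b₁) ∧
      4 * τ ≤ k + ce - (s + 2 * s0 + 2 * b₁) := by
    refine ⟨min (1 - (s + s0 + 8 * b₁)) (k + ce - (s + 2 * s0 + 2 * b₁)) / 4, ?_, ?_, ?_⟩
    · have : 0 < min (1 - (s + s0 + 8 * b₁)) (k + ce - (s + 2 * s0 + 2 * b₁)) :=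
        lt_min (by linarith) (by linarith)
      linarith
    · have := min_le_left (1 - (s + s0 + 8 * b₁)) (k + ce - (s + 2 * s0 + 2 * b₁))
      linarith
    · have := min_le_right (1 - (s + s0 + 8 * b₁)) (k + ce - (s + 2 * s0 + 2 * b₁))
      linarith
  obtain ⟨ch, hch⟩ : ∃ ch, ch = s + s0 + 2 * b₁ + τ := ⟨_, rfl⟩
  have hch0 : 0 < ch := by rw [hch]; positivity
  obtain ⟨δ, hδ0, hδτ, hδk⟩ : ∃ δ : ℝ, 0 < δ ∧ δ ≤ τ ∧ δ ≤ k / 2 :=
    ⟨min τ (k / 2), lt_min hτ0 (by linarith), min_le_left _ _, min_le_right _ _⟩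
  have hlink := link_up_ap (b := β) (s0 := s0) (e := 1 / 6 - b₁) (g := τ) (ch := ch) (ce := ce)
    (k := k - δ) hβ0 hch0.le hce (by rw [hch]; linarith) (by rw [hch]; linarith)
  filter_upwards [hlink, hA (64 * A) (by linarith),
    ap_of_nm hβ hcv hK hs0, ap_triv hβ hK hs0 (A := A) hA0.le, ev_rpow hτ0 (256 * β * A),
    ev_rpow hτ0 (2 / ε), ev_rpow hδ0 (32 * A), ev_rpow hd0 (4 * A), ev_rpow hb₀ 16,
    eventually_ge_atTop 1, ev_rpow hτ0 (2 / κ)] with n g1 g2 g3 g4 g5 g6 g7 g8 g9 g10 g11 y hy hy1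
    V hV1 hV2 hist hresp hsec
  have hn1 : (1 : ℝ) ≤ n := by exact_mod_cast g10
  have hn0 : (0 : ℝ) < n := by linarith
  have hy0 : 0 < y := lt_of_lt_of_le (Real.rpow_pos_of_pos hn0 _) hy
  obtain ⟨hy16, hV0, hVy2, hV1'⟩ := size_facts hn1 hA0 hy0 hy1 hV1 hV2 g8 g9
  -- the shift
  obtain ⟨θ, hθ⟩ : ∃ θ, θ = (n : ℝ) ^ (-ch) := ⟨_, rfl⟩
  have hθ0 : 0 < θ := by rw [hθ]; exact Real.rpow_pos_of_pos hn0 _
  have hθ1 : θ ≤ 1 := by
    rw [hθ]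
    exact Real.rpow_le_one_of_one_le_of_nonpos hn1 (by linarith)
  obtain ⟨y', hy'⟩ : ∃ y', y' = y * (1 + θ) := ⟨_, rfl⟩
  have hyθ0 : 0 < y * θ := mul_pos hy0 hθ0
  have hyθ1 : y * θ ≤ y := mul_le_of_le_one_right hy0.le hθ1
  have hyy' : y ≤ y' := by rw [hy']; linarith
  have hy'y : y' ≤ 2 * y := by rw [hy']; linarith
  have hy'0 : 0 < y' := hy0.trans_le hyy'
  have hn16 : (n : ℝ) ^ (-(1 / 6) : ℝ) ≤ y :=
    (Real.rpow_le_rpow_of_exponent_le hn1 (by linarith)).trans hy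
  -- the a-priori package
  have hap : ∀ u : ℝ, y ≤ u → u ≤ 2 * y → AP β s0 n u (2 * V) := by
    intro u hu1 hu2
    rcases hist with h3 | ⟨z, hz, h3⟩
    · exact g4 u (2 * V) (hn16.trans hu1) (by linarith)
        (h3.trans (mul_le_mul_of_nonneg_left (pow_le_pow_left₀ hy0.le hu1 5) hA0.le))
    · refine g3 y z (2 * V) hn16 hy16 hz.1 hz.2 (by linarith) hVy2 ?_ u (by linarith) hu2
      rw [H9.At_eq]
      exact h3
  have hap0 := hap y le_rfl (by linarith)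
  have hap1 := hap y' hyy' hy'y
  obtain ⟨a, ha⟩ := exists_SG (y := y') g10 hβ0 hy'0 (by linarith) hV0
  obtain ⟨w, hw0, hwV, hsec⟩ := hsec
  -- the tangent
  have hat : a ≤ 64 * A * ((n : ℝ) ^ (-s) * y' ^ 2) :=
    tangent_num hβ0 g10 hA1 hy0 hy hθ hθ1 hy' hch hw0 hwV hV0 hV1 hsec hap1 ha g5
  obtain ⟨hs0', hsV, hsV1, hlam, heta, hle, hV1''⟩ := par_facts hn1 hk hcl hce hδk hA1 hy0 hyy'
    hy'y (by linarith) hV0 hV1 g7
  -- the amplitude law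
  have hV2'' : V ≤ 64 * A * ((n : ℝ) ^ (-d0) * y' ^ 3) := by
    refine hV2.trans ?_
    have h3 : (n : ℝ) ^ (-d0) * y ^ 3 ≤ (n : ℝ) ^ (-d0) * y' ^ 3 :=
      mul_le_mul_of_nonneg_left (pow_le_pow_left₀ hy0.le hyy' 3) (Real.rpow_nonneg hn0.le _)
    have h4 : 0 ≤ (n : ℝ) ^ (-d0) * y' ^ 3 := by positivity
    have h5 := mul_le_mul_of_nonneg_left h3 hA0.le
    have h6 := mul_nonneg hA0.le h4
    linarith
  have hresp' : n * V / (2 * β) ≤ Phn n β y' V - Phn n β y' 0 + κ * (n * y' ^ 5) := by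
    rw [hy']
    refine resp_shift (τ := τ) g10 hy0 hθ0 hκ hV0.le (by rw [← hy']; exact hap1) hresp ?_ g11
    rw [hθ, ← Real.rpow_add hn0]
    refine Real.rpow_le_rpow_of_exponent_le hn1 ?_
    rw [hch]
    linarith
  have hamp := g2 y' (hy.trans hyy') (by linarith) V hV1'' hV2'' hap1 hresp' a ha hat
  -- the link
  have hsum : ∑ _l : Unit, √(V - sL k n y' ^ 2) ^ 2 + sL k n y' ^ 2 = V := by
    simp only [Finset.univ_unique, Finset.sum_const, Finset.card_singleton, one_smul]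
    rw [Real.sq_sqrt (by linarith)]
    ring
  have hy6 : (n : ℝ) ^ (-(1 / 6 : ℝ) + (1 / 6 - b₁)) ≤ y := by
    have e : -(1 / 6 : ℝ) + (1 / 6 - b₁) = -b₁ := by ring
    rw [e]
    exact hy
  have hfin := g1 Unit Unit (fun _ => 1) (fun _ => √(V - sL k n y' ^ 2)) (lamL cl ce n y')
    (sL k n y') (etaL ce n) y V a (by simp) hsum.symm
    hV1' hs0' hsV hlam heta le_rfl hle (by linarith)
    (by linarith) hap0 (by rw [← hθ, ← hy']; exact hap1) (by rw [← hθ, ← hy']; exact ha)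
  rw [← hθ, ← hy'] at hfin
  exact fin_facts hn1 hε hy0 hy'0 hy'y g6 hfin hamp

end Vale.Agent.P146.H75.W
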