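import Vale.Agent.P146.H892.StartH
import Vale.Agent.P146.H529.LinkAP

/-!
# P146: the input of the anchor from the amplitude law

`LCin2` is the input of the descending anchor for the natural functional (the secant which is
assumed to be small ends at `V` and has length at least `V / 2`), `LCamp` is the corresponding
statement for the amplitude law with its own slope. `lc_of_amp : LCamp → LCin2`.
-/

open MeasureTheory ProbabilityTheory Filter Topology Set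

namespace Vale.Agent.P146.H75

open Vale.Agent.P146.H122 (Asec At)
open Vale.Agent.P146.H9 (Phn KV)
open Vale.Agent.P146.H529 (SG cc Fsk exists_SG ev_rpow link_up_ap)
open Vale.Agent.P146.H178 (AP UpK Ccv ap_of_nm ap_triv)
open Vale.Agent.P146.H425 (KL)

/-- The entropy is small if the response is small; the a-priori information is the history. -/
def LCin2 (β b₁ b₀ d0 s : ℝ) (Φ K : ℕ → ℝ → ℝ → ℝ) : Prop := ∀ A : ℝ, 1 ≤ A → ∀ ε : ℝ, 0 < ε →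
  ∀ᶠ n : ℕ in atTop, ∀ y : ℝ, (n : ℝ) ^ (-b₁) ≤ y → y ≤ (n : ℝ) ^ (-b₀) →
    ∀ V : ℝ, y ^ 5 ≤ A * V → V ≤ A * ((n : ℝ) ^ (-d0) * y ^ 3) →
    (2 * V ≤ A * y ^ 5 ∨ ∃ z ∈ Icc y (2 * y), 1 ≤ At β Φ n z (2 * V)) →
    (∃ w : ℝ, 0 ≤ w ∧ 2 * w ≤ V ∧ Asec β Φ n y w V ≤ 1 + A * ((n : ℝ) ^ (-s) * y ^ 2)) →
    K n y V ≤ ε * (n * y ^ 6)

/-- the clip width of the amplitude -/
noncomputable def etaL (ce : ℝ) (n : ℕ) : ℝ := (n : ℝ) ^ (-ce)

/-- the parameter of the amplitude -/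
noncomputable def lamL (cl ce : ℝ) (n : ℕ) (y : ℝ) : ℝ := (n : ℝ) ^ (cl + ce) / y

/-- the standard deviation of the modulated field -/
noncomputable def sL (k : ℝ) (n : ℕ) (y : ℝ) : ℝ := √((n : ℝ) ^ (-k) * y ^ 5)

/-- the entropy of the amplitude law -/
noncomputable def KampL (β k ce cl : ℝ) (n : ℕ) (y V a : ℝ) : ℝ :=
  KL (Fsk n Unit Unit β (fun _ => 1) (fun _ => √(V - sL k n y ^ 2)) (lamL cl ce n y) (sL k n y)
    (etaL ce n) (cc n β (sL k n y) a)) y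

/-- The entropy of the amplitude law is small if its own tangent is small. -/
def LCamp (β b₁ b₀ d0 s s0 k ce cl : ℝ) : Prop := ∀ A : ℝ, 1 ≤ A → ∀ ε : ℝ, 0 < ε →
  ∀ᶠ n : ℕ in atTop, ∀ y : ℝ, (n : ℝ) ^ (-b₁) ≤ y → y ≤ 2 * (n : ℝ) ^ (-b₀) →
    ∀ V : ℝ, y ^ 5 ≤ A * V → V ≤ A * ((n : ℝ) ^ (-d0) * y ^ 3) → AP β s0 n y (2 * V) →
    ∀ a : ℝ, SG n β y V a → a ≤ A * ((n : ℝ) ^ (-s) * y ^ 2) →
    KampL β k ce cl n y V a ≤ ε * (n * y ^ 6)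

/-- the tangent at `V` for the exponent `y (1 + θ)` from a secant for the exponent `y` -/
lemma tangent_le {β : ℝ} (hβ : 0 < β) {n : ℕ} (hn : 1 ≤ n) {y θ V w a s0 S : ℝ} (hy : 0 < y)
    (hθ : 0 < θ) (hθ1 : θ ≤ 1) (hw : 0 ≤ w) (hwV : 2 * w ≤ V) (hV : 0 < V)
    (hS : Asec β (fun n x v => Phn n β x v) n y w V ≤ 1 + S)
    (hap : AP β s0 n (y * (1 + θ)) (2 * V)) (ha : SG n β (y * (1 + θ)) V a) :
    a ≤ S + 256 * β * ((n : ℝ) ^ s0 * θ * y ^ 5 / V) := by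
  have hn0 : (0 : ℝ) < n := by exact_mod_cast hn
  have hy' : 0 < y * (1 + θ) := by positivity
  have hyy : y ≤ y * (1 + θ) := by nlinarith
  have hVw : 0 < V - w := by linarith
  have h1 := ha w hw
  have h2 := (H9.Phn_sub_bd n β V hy hyy).2
  have h3 := (H9.Phn_sub_bd n β w hy hyy).1
  have h4 := hap.kk V hV.le (by linarith)
  have h5 := H9.KV_nonneg n β w hy.le
  have e1 : 1 / y - 1 / (y * (1 + θ)) = θ / (y * (1 + θ)) := by
    field_simp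
    ring
  rw [e1] at h2 h3
  have h6 : 0 ≤ KV n β y w * (θ / (y * (1 + θ))) := by positivity
  have h7 : KV n β (y * (1 + θ)) V * (θ / (y * (1 + θ))) ≤
      64 * ((n : ℝ) ^ (1 + s0) * θ * y ^ 5) := by
    calc KV n β (y * (1 + θ)) V * (θ / (y * (1 + θ)))
        ≤ ((n : ℝ) ^ (1 + s0) * (y * (1 + θ)) ^ 6) * (θ / (y * (1 + θ))) := by gcongr
      _ = (n : ℝ) ^ (1 + s0) * θ * (y * (1 + θ)) ^ 5 := by
          field_simp
      _ ≤ (n : ℝ) ^ (1 + s0) * θ * (y * 2) ^ 5 := by gcongr; linarith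
      _ = 32 * ((n : ℝ) ^ (1 + s0) * θ * y ^ 5) := by ring
      _ ≤ _ := by
          have : 0 ≤ (n : ℝ) ^ (1 + s0) * θ * y ^ 5 := by positivity
          linarith
  have h8 : Phn n β y V - Phn n β y w ≤ n / (2 * β) * (1 + S) * (V - w) := by
    have e2 : Asec β (fun n x v => Phn n β x v) n y w V =
        2 * β / n * ((Phn n β y V - Phn n β y w) / (V - w)) := rfl
    rw [e2] at hS
    have h9 : (Phn n β y V - Phn n β y w) / (V - w) ≤ n / (2 * β) * (1 + S) := by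
      have h10 := mul_le_mul_of_nonneg_left hS (show 0 ≤ n / (2 * β) by positivity)
      have e3 : n / (2 * β) * (2 * β / n * ((Phn n β y V - Phn n β y w) / (V - w))) =
          (Phn n β y V - Phn n β y w) / (V - w) := by
        field_simp
      linarith
    rwa [div_le_iff₀ hVw] at h9
  have h11 : n / (2 * β) * (1 + a) * (V - w) ≤ n / (2 * β) * (1 + S) * (V - w) +
      64 * ((n : ℝ) ^ (1 + s0) * θ * y ^ 5) := by linarith
  have h12 : n / (2 * β) * (a - S) * (V - w) ≤ 64 * ((n : ℝ) ^ (1 + s0) * θ * y ^ 5) := by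
    linarith
  have e4 : (n : ℝ) ^ (1 + s0) = n * (n : ℝ) ^ s0 := by
    rw [Real.rpow_add hn0, Real.rpow_one]
  rw [e4] at h12
  by_contra hc
  push Not at hc
  have h13 : 256 * β * ((n : ℝ) ^ s0 * θ * y ^ 5 / V) < a - S := by linarith
  have h14 : n / (2 * β) * (256 * β * ((n : ℝ) ^ s0 * θ * y ^ 5 / V)) * (V / 2) <
      n / (2 * β) * (a - S) * (V - w) := by
    have k1 : 0 < 256 * β * ((n : ℝ) ^ s0 * θ * y ^ 5 / V) := by positivity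
    have k2 : 0 < n / (2 * β) := by positivity
    calc n / (2 * β) * (256 * β * ((n : ℝ) ^ s0 * θ * y ^ 5 / V)) * (V / 2)
        < n / (2 * β) * (a - S) * (V / 2) := by gcongr
      _ ≤ n / (2 * β) * (a - S) * (V - w) := by
          refine mul_le_mul_of_nonneg_left (by linarith) ?_
          have : 0 < a - S := lt_trans k1 h13
          positivity
  have e5 : n / (2 * β) * (256 * β * ((n : ℝ) ^ s0 * θ * y ^ 5 / V)) * (V / 2) =
      64 * (n * (n : ℝ) ^ s0 * θ * y ^ 5) := by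
    field_simp
    ring
  rw [e5] at h14
  linarith

lemma rpow_neg_mul_le {n : ℕ} (hn : (1 : ℝ) ≤ n) {e c : ℝ} (h : c ≤ (n : ℝ) ^ e) :
    (n : ℝ) ^ (-e) * c ≤ 1 := by
  have hn0 : (0 : ℝ) < n := by linarith
  rw [Real.rpow_neg hn0.le, inv_mul_le_iff₀ (Real.rpow_pos_of_pos hn0 _), mul_one]
  exact h

/-- sizes in the window of `V` -/
lemma size_facts {n : ℕ} {y V A d0 b₀ : ℝ} (hn1 : (1 : ℝ) ≤ n) (hA0 : 0 < A) (hy0 : 0 < y)
    (hy1 : y ≤ (n : ℝ) ^ (-b₀)) (hV1 : y ^ 5 ≤ A * V) (hV2 : V ≤ A * ((n : ℝ) ^ (-d0) * y ^ 3))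
    (g8 : 4 * A ≤ (n : ℝ) ^ d0) (g9 : 16 ≤ (n : ℝ) ^ b₀) :
    y ≤ 1 / 16 ∧ 0 < V ∧ 2 * V ≤ y ^ 2 ∧ V ≤ 1 := by
  have hn0 : (0 : ℝ) < n := by linarith
  have h16 := rpow_neg_mul_le hn1 g9
  have hy16 : y ≤ 1 / 16 := by linarith
  have hd0n := rpow_neg_mul_le hn1 g8
  have h3 : 0 < y ^ 3 := by positivity
  have hVy3 : V ≤ y ^ 3 / 4 := by
    have e : A * ((n : ℝ) ^ (-d0) * y ^ 3) = (n : ℝ) ^ (-d0) * (4 * A) * (y ^ 3 / 4) := by ring
    rw [e] at hV2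
    refine hV2.trans ?_
    have := mul_le_mul_of_nonneg_right hd0n (show 0 ≤ y ^ 3 / 4 by positivity)
    linarith
  have hV0 : 0 < V := by
    have h5 : 0 < y ^ 5 := by positivity
    have h4 : 0 < A * V := lt_of_lt_of_le h5 hV1
    exact (mul_pos_iff_of_pos_left hA0).1 h4
  have h2 : 0 < y ^ 2 := by positivity
  have e3 : y ^ 3 = y * y ^ 2 := by ring
  have h32 : y ^ 3 ≤ 1 / 16 * y ^ 2 := by
    rw [e3]
    exact mul_le_mul_of_nonneg_right hy16 h2.le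
  have h21 : y ^ 2 ≤ 1 := by
    have := pow_le_pow_left₀ hy0.le hy16 2
    norm_num at this
    linarith
  exact ⟨hy16, hV0, by linarith, by linarith⟩

/-- the tangent of the amplitude law in terms of the window -/
lemma tangent_num {β : ℝ} (hβ0 : 0 < β) {n : ℕ} (g10 : 1 ≤ n) {y θ y' V w a s0 s A b₁ ch τ : ℝ}
    (hA0 : 1 ≤ A) (hy0 : 0 < y) (hy : (n : ℝ) ^ (-b₁) ≤ y) (hθ : θ = (n : ℝ) ^ (-ch))
    (hθ1 : θ ≤ 1) (hy' : y' = y * (1 + θ)) (hch : ch = s + s0 + 2 * b₁ + τ)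
    (hw0 : 0 ≤ w) (hwV : 2 * w ≤ V) (hV0 : 0 < V) (hV1 : y ^ 5 ≤ A * V)
    (hsec : Asec β (fun n x v => Phn n β x v) n y w V ≤ 1 + A * ((n : ℝ) ^ (-s) * y ^ 2))
    (hap : AP β s0 n y' (2 * V)) (ha : SG n β y' V a) (g5 : 256 * β * A ≤ (n : ℝ) ^ τ) :
    a ≤ 64 * A * ((n : ℝ) ^ (-s) * y' ^ 2) := by
  have hn0 : (0 : ℝ) < n := by exact_mod_cast g10
  have hθ0 : 0 < θ := by rw [hθ]; exact Real.rpow_pos_of_pos hn0 _
  have hyy' : y ≤ y' := by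
    rw [hy']
    have := mul_pos hy0 hθ0
    linarith
  rw [hy'] at hap ha
  have h3 := tangent_le hβ0 g10 hy0 hθ0 hθ1 hw0 hwV hV0 hsec hap ha
  have h5 : y ^ 5 / V ≤ A := by
    rw [div_le_iff₀ hV0]
    exact hV1
  have h6 : (n : ℝ) ^ (-(2 * b₁)) ≤ y ^ 2 := by
    have h7 : ((n : ℝ) ^ (-b₁)) ^ 2 ≤ y ^ 2 :=
      pow_le_pow_left₀ (Real.rpow_pos_of_pos hn0 _).le hy 2
    rw [← Real.rpow_natCast, ← Real.rpow_mul hn0.le] at h7
    have e : -b₁ * ((2 : ℕ) : ℝ) = -(2 * b₁) := by push_cast; ring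
    rwa [e] at h7
  have h0 : 0 ≤ (n : ℝ) ^ s0 * θ := by positivity
  have h4 : 256 * β * ((n : ℝ) ^ s0 * θ * y ^ 5 / V) ≤ (n : ℝ) ^ (-s) * y ^ 2 := by
    calc 256 * β * ((n : ℝ) ^ s0 * θ * y ^ 5 / V)
        = 256 * β * ((n : ℝ) ^ s0 * θ) * (y ^ 5 / V) := by ring
      _ ≤ 256 * β * ((n : ℝ) ^ s0 * θ) * A := mul_le_mul_of_nonneg_left h5 (by positivity)
      _ = (256 * β * A) * ((n : ℝ) ^ s0 * θ) := by ring
      _ ≤ (n : ℝ) ^ τ * ((n : ℝ) ^ s0 * θ) := mul_le_mul_of_nonneg_right g5 h0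
      _ = (n : ℝ) ^ (-s) * (n : ℝ) ^ (-(2 * b₁)) := by
          rw [hθ, ← Real.rpow_add hn0, ← Real.rpow_add hn0, ← Real.rpow_add hn0, hch]
          congr 1
          ring
      _ ≤ (n : ℝ) ^ (-s) * y ^ 2 := mul_le_mul_of_nonneg_left h6 (Real.rpow_nonneg hn0.le _)
  have h8 : (n : ℝ) ^ (-s) * y ^ 2 ≤ (n : ℝ) ^ (-s) * y' ^ 2 :=
    mul_le_mul_of_nonneg_left (pow_le_pow_left₀ hy0.le hyy' 2) (Real.rpow_nonneg hn0.le _)
  have h9 : 0 ≤ (n : ℝ) ^ (-s) * y' ^ 2 := by positivity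
  set X := (n : ℝ) ^ (-s) * y ^ 2
  set Y := (n : ℝ) ^ (-s) * y' ^ 2
  have h10 : A * X ≤ A * Y := mul_le_mul_of_nonneg_left h8 (by linarith)
  have h11 : Y ≤ A * Y := le_mul_of_one_le_left h9 hA0
  have h12 : 0 ≤ A * Y := mul_nonneg (by linarith) h9
  linarith

/-- sizes of the parameters of the amplitude law -/
lemma par_facts {n : ℕ} (hn1 : (1 : ℝ) ≤ n) {k ce cl δ A V y y' : ℝ} (hk : 0 < k) (hcl : 0 ≤ cl)
    (hce : 0 < ce) (hδk : δ ≤ k / 2) (hA0 : 1 ≤ A) (hy0 : 0 < y) (hyy' : y ≤ y')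
    (hy'y : y' ≤ 2 * y) (hy'1 : y' ≤ 1) (hV0 : 0 < V) (hV1 : y ^ 5 ≤ A * V)
    (g7 : 32 * A ≤ (n : ℝ) ^ δ) :
    0 < sL k n y' ∧ sL k n y' ^ 2 ≤ (n : ℝ) ^ (-(k - δ)) * V ∧ sL k n y' ^ 2 ≤ V ∧
      1 ≤ lamL cl ce n y' ∧ 0 < etaL ce n ∧ 1 ≤ lamL cl ce n y' * etaL ce n ∧
      y' ^ 5 ≤ 64 * A * V := by
  have hn0 : (0 : ℝ) < n := by linarith
  have hy'0 : 0 < y' := hy0.trans_le hyy'
  have hs2 : sL k n y' ^ 2 = (n : ℝ) ^ (-k) * y' ^ 5 := by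
    unfold sL
    rw [Real.sq_sqrt (by positivity)]
  have hs0' : 0 < sL k n y' := Real.sqrt_pos.2 (by positivity)
  have h5 : y' ^ 5 ≤ 32 * A * V := by
    have h3 : y' ^ 5 ≤ (2 * y) ^ 5 := pow_le_pow_left₀ hy'0.le hy'y 5
    have e : (2 * y) ^ 5 = 32 * y ^ 5 := by ring
    linarith
  have hsV : sL k n y' ^ 2 ≤ (n : ℝ) ^ (-(k - δ)) * V := by
    rw [hs2]
    calc (n : ℝ) ^ (-k) * y' ^ 5 ≤ (n : ℝ) ^ (-k) * (32 * A * V) :=
          mul_le_mul_of_nonneg_left h5 (Real.rpow_nonneg hn0.le _)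
      _ = (n : ℝ) ^ (-k) * (32 * A) * V := by ring
      _ ≤ (n : ℝ) ^ (-k) * (n : ℝ) ^ δ * V := mul_le_mul_of_nonneg_right
          (mul_le_mul_of_nonneg_left g7 (Real.rpow_nonneg hn0.le _)) hV0.le
      _ = (n : ℝ) ^ (-(k - δ)) * V := by
          rw [← Real.rpow_add hn0]
          congr 2
          ring
  have hsV1 : sL k n y' ^ 2 ≤ V := by
    refine hsV.trans ?_
    have : (n : ℝ) ^ (-(k - δ)) ≤ 1 :=
      Real.rpow_le_one_of_one_le_of_nonpos hn1 (by linarith)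
    exact mul_le_of_le_one_left hV0.le this
  have hlam : 1 ≤ lamL cl ce n y' := by
    unfold lamL
    rw [le_div_iff₀ hy'0, one_mul]
    have : (1 : ℝ) ≤ (n : ℝ) ^ (cl + ce) := Real.one_le_rpow hn1 (by linarith)
    linarith
  have heta : 0 < etaL ce n := Real.rpow_pos_of_pos hn0 _
  have hle : 1 ≤ lamL cl ce n y' * etaL ce n := by
    have e : lamL cl ce n y' * etaL ce n = (n : ℝ) ^ cl / y' := by
      unfold lamL etaL
      rw [div_mul_eq_mul_div, ← Real.rpow_add hn0]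
      congr 2
      ring
    rw [e, le_div_iff₀ hy'0, one_mul]
    have : (1 : ℝ) ≤ (n : ℝ) ^ cl := Real.one_le_rpow hn1 hcl
    linarith
  refine ⟨hs0', hsV, hsV1, hlam, heta, hle, ?_⟩
  have : 0 ≤ A * V := mul_nonneg (by linarith) hV0.le
  linarith

/-- the final arithmetic -/
lemma fin_facts {n : ℕ} (hn1 : (1 : ℝ) ≤ n) {τ ε y y' K Ka : ℝ} (hε : 0 < ε) (hy0 : 0 < y)
    (hy'0 : 0 < y') (hy'y : y' ≤ 2 * y) (g6 : 2 / ε ≤ (n : ℝ) ^ τ)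
    (h1 : K ≤ Ka + (n : ℝ) ^ (1 - τ) * y ^ 6) (h2 : Ka ≤ ε / 128 * (n * y' ^ 6)) :
    K ≤ ε * (n * y ^ 6) := by
  have hn0 : (0 : ℝ) < n := by linarith
  have h3 : ε / 128 * (n * y' ^ 6) ≤ ε / 2 * (n * y ^ 6) := by
    have h4 : y' ^ 6 ≤ (2 * y) ^ 6 := pow_le_pow_left₀ hy'0.le hy'y 6
    have e : (2 * y) ^ 6 = 64 * y ^ 6 := by ring
    rw [e] at h4
    calc ε / 128 * (n * y' ^ 6) ≤ ε / 128 * (n * (64 * y ^ 6)) :=
          mul_le_mul_of_nonneg_left (mul_le_mul_of_nonneg_left h4 hn0.le) (by positivity)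
      _ = _ := by ring
  have h5 : (n : ℝ) ^ (1 - τ) * y ^ 6 ≤ ε / 2 * (n * y ^ 6) := by
    have e : (n : ℝ) ^ (1 - τ) = n * ((n : ℝ) ^ τ)⁻¹ := by
      rw [sub_eq_add_neg, Real.rpow_add hn0, Real.rpow_one, Real.rpow_neg hn0.le]
    have h6 : ((n : ℝ) ^ τ)⁻¹ ≤ ε / 2 := by
      rw [inv_le_comm₀ (Real.rpow_pos_of_pos hn0 _) (by positivity), inv_div]
      exact g6
    rw [e]
    calc n * ((n : ℝ) ^ τ)⁻¹ * y ^ 6 ≤ n * (ε / 2) * y ^ 6 := by gcongr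
      _ = _ := by ring
  linarith

/-- **LC for the natural functional from LC for the amplitude law.** -/
theorem lc_of_amp {β b₁ b₀ d0 s s0 k ce cl : ℝ} (hβ : 1 < β) (hK : UpK β) (hb₀ : 0 < b₀)
    (_hb₁ : b₁ < 1 / 6) (hb : b₀ ≤ b₁) (hd0 : 0 < d0) (hs0 : 0 < s0) (hs : 0 < s) (hk : 0 < k)
    (hce : 0 < ce) (hcl : 0 ≤ cl) (h1 : s + s0 + 8 * b₁ < 1) (h2 : s + 2 * s0 + 2 * b₁ < k + ce)
    (hA : LCamp β b₁ b₀ d0 s s0 k ce cl) :
    LCin2 β b₁ b₀ d0 s (fun n x v => Phn n β x v) (fun n x v => KV n β x v) := by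
  intro A hA1 ε hε
  have hβ0 : 0 < β := by linarith
  have hA0 : 0 < A := by linarith
  have hb₁0 : 0 < b₁ := hb₀.trans_le hb
  have hcv : Ccv β := fun n _ x hx hx2 => H320.Conc.Phn_conc n β hx (by linarith)
  -- the exponents of the shift
  obtain ⟨τ, hτ0, hτ1, hτ2⟩ : ∃ τ : ℝ, 0 < τ ∧ 4 * τ ≤ 1 - (s + s0 + 8 * b₁) ∧
      4 * τ ≤ k + ce - (s + 2 * s0 + 2 * b₁) := by
    refine ⟨min (1 - (s + s0 + 8 * b₁)) (k + ce - (s + 2 * s0 + 2 * b₁)) / 4, ?_, ?_, ?_⟩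
    · have : 0 < min (1 - (s + s0 + 8 * b₁)) (k + ce - (s + 2 * s0 + 2 * b₁)) :=
        lt_min (by linarith) (by linarith)
      linarith
    · have := min_le_left (1 - (s + s0 + 8 * b₁)) (k + ce - (s + 2 * s0 + 2 * b₁))
      linarith
    · have := min_le_right (1 - (s + s0 + 8 * b₁)) (k + ce - (s + 2 * s0 + 2 * b₁))
      linarith
  obtain ⟨ch, hch⟩ : ∃ ch, ch = s + s0 + 2 * b₁ + τ := ⟨_, rfl⟩
  have hch0 : 0 < ch := by rw [hch]; positivity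
  obtain ⟨δ, hδ0, hδτ, hδk⟩ : ∃ δ : ℝ, 0 < δ ∧ δ ≤ τ ∧ δ ≤ k / 2 :=
    ⟨min τ (k / 2), lt_min hτ0 (by linarith), min_le_left _ _, min_le_right _ _⟩
  have hlink := link_up_ap (b := β) (s0 := s0) (e := 1 / 6 - b₁) (g := τ) (ch := ch) (ce := ce)
    (k := k - δ) hβ0 hch0.le hce (by rw [hch]; linarith) (by rw [hch]; linarith)
  filter_upwards [hlink, hA (64 * A) (by linarith) (ε / 128) (by positivity),
    ap_of_nm hβ hcv hK hs0, ap_triv hβ hK hs0 (A := A) hA0.le, ev_rpow hτ0 (256 * β * A),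
    ev_rpow hτ0 (2 / ε), ev_rpow hδ0 (32 * A), ev_rpow hd0 (4 * A), ev_rpow hb₀ 16,
    eventually_ge_atTop 1] with n g1 g2 g3 g4 g5 g6 g7 g8 g9 g10 y hy hy1 V hV1 hV2 hist hsec
  have hn1 : (1 : ℝ) ≤ n := by exact_mod_cast g10
  have hn0 : (0 : ℝ) < n := by linarith
  have hy0 : 0 < y := lt_of_lt_of_le (Real.rpow_pos_of_pos hn0 _) hy
  obtain ⟨hy16, hV0, hVy2, hV1'⟩ := size_facts hn1 hA0 hy0 hy1 hV1 hV2 g8 g9
  -- the shift
  obtain ⟨θ, hθ⟩ : ∃ θ, θ = (n : ℝ) ^ (-ch) := ⟨_, rfl⟩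
  have hθ0 : 0 < θ := by rw [hθ]; exact Real.rpow_pos_of_pos hn0 _
  have hθ1 : θ ≤ 1 := by
    rw [hθ]
    exact Real.rpow_le_one_of_one_le_of_nonpos hn1 (by linarith)
  obtain ⟨y', hy'⟩ : ∃ y', y' = y * (1 + θ) := ⟨_, rfl⟩
  have hyθ0 : 0 < y * θ := mul_pos hy0 hθ0
  have hyθ1 : y * θ ≤ y := mul_le_of_le_one_right hy0.le hθ1
  have hyy' : y ≤ y' := by rw [hy']; linarith
  have hy'y : y' ≤ 2 * y := by rw [hy']; linarith
  have hy'0 : 0 < y' := hy0.trans_le hyy'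
  have hn16 : (n : ℝ) ^ (-(1 / 6) : ℝ) ≤ y :=
    (Real.rpow_le_rpow_of_exponent_le hn1 (by linarith)).trans hy
  -- the a-priori package
  have hap : ∀ u : ℝ, y ≤ u → u ≤ 2 * y → AP β s0 n u (2 * V) := by
    intro u hu1 hu2
    rcases hist with h3 | ⟨z, hz, h3⟩
    · exact g4 u (2 * V) (hn16.trans hu1) (by linarith)
        (h3.trans (mul_le_mul_of_nonneg_left (pow_le_pow_left₀ hy0.le hu1 5) hA0.le))
    · refine g3 y z (2 * V) hn16 hy16 hz.1 hz.2 (by linarith) hVy2 ?_ u (by linarith) hu2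
      rw [H9.At_eq]
      exact h3
  have hap0 := hap y le_rfl (by linarith)
  have hap1 := hap y' hyy' hy'y
  obtain ⟨a, ha⟩ := exists_SG (y := y') g10 hβ0 hy'0 (by linarith) hV0
  obtain ⟨w, hw0, hwV, hsec⟩ := hsec
  -- the tangent
  have hat : a ≤ 64 * A * ((n : ℝ) ^ (-s) * y' ^ 2) :=
    tangent_num hβ0 g10 hA1 hy0 hy hθ hθ1 hy' hch hw0 hwV hV0 hV1 hsec hap1 ha g5
  obtain ⟨hs0', hsV, hsV1, hlam, heta, hle, hV1''⟩ := par_facts hn1 hk hcl hce hδk hA1 hy0 hyy'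
    hy'y (by linarith) hV0 hV1 g7
  -- the amplitude law
  have hV2'' : V ≤ 64 * A * ((n : ℝ) ^ (-d0) * y' ^ 3) := by
    refine hV2.trans ?_
    have h3 : (n : ℝ) ^ (-d0) * y ^ 3 ≤ (n : ℝ) ^ (-d0) * y' ^ 3 :=
      mul_le_mul_of_nonneg_left (pow_le_pow_left₀ hy0.le hyy' 3) (Real.rpow_nonneg hn0.le _)
    have h4 : 0 ≤ (n : ℝ) ^ (-d0) * y' ^ 3 := by positivity
    have h5 := mul_le_mul_of_nonneg_left h3 hA0.le
    have h6 := mul_nonneg hA0.le h4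
    linarith
  have hamp := g2 y' (hy.trans hyy') (by linarith) V hV1'' hV2'' hap1 a ha hat
  -- the link
  have hsum : ∑ _l : Unit, √(V - sL k n y' ^ 2) ^ 2 + sL k n y' ^ 2 = V := by
    simp only [Finset.univ_unique, Finset.sum_const, Finset.card_singleton, one_smul]
    rw [Real.sq_sqrt (by linarith)]
    ring
  have hy6 : (n : ℝ) ^ (-(1 / 6 : ℝ) + (1 / 6 - b₁)) ≤ y := by
    have e : -(1 / 6 : ℝ) + (1 / 6 - b₁) = -b₁ := by ring
    rw [e]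
    exact hy
  have hfin := g1 Unit Unit (fun _ => 1) (fun _ => √(V - sL k n y' ^ 2)) (lamL cl ce n y')
    (sL k n y') (etaL ce n) y V a (by simp) hsum.symm
    hV1' hs0' hsV hlam heta le_rfl hle (by linarith)
    (by linarith) hap0 (by rw [← hθ, ← hy']; exact hap1) (by rw [← hθ, ← hy']; exact ha)
  rw [← hθ, ← hy'] at hfin
  exact fin_facts hn1 hε hy0 hy'0 hy'y g6 hfin hamp

end Vale.Agent.P146.H75
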