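import Vale.Agent.P146.H75.LcNearV
import Vale.Agent.P146.H75.LcLink

/-!
# P146: the near input of the amplitude law

`lcbr_of_near`: the bracket of the near part for the amplitude law, from `PsiUp` and `LawLow`.
-/

open MeasureTheory ProbabilityTheory Filter Topology Set

namespace Vale.Agent.P146.H75.W

open Vale.Agent.P146.H9 (Phn KV)
open Vale.Agent.P146.H529 (ev_rpow)
open Vale.Agent.P146.H178 (AP)
open Vale.Agent.P146.H698.FO (PsiV PsiT)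

/-- **The near input of the amplitude law** (the end `T ≤ n ^ (-c1) y ^ 2`). -/
theorem lcbr_of_near {β p A₀ b₁ b₀ d0 s0 k ce c1 : ℝ} (hβ : 1 < β) (hP : PsiUp β p A₀)
    (hL : LawLow β p A₀ b₁) (hb₀ : 0 < b₀) (hd0 : 0 < d0) (hk : 0 < k) (hce : 0 ≤ ce)
    (hc1 : 0 < c1) : ∀ ε : ℝ, 0 < ε → ∃ κ : ℝ, 0 < κ ∧ ∀ A : ℝ, 1 ≤ A → ∀ᶠ n : ℕ in atTop,
    ∀ y V : ℝ, (n : ℝ) ^ (-b₁) ≤ y → y ≤ 2 * (n : ℝ) ^ (-b₀) → y ^ 5 ≤ A * V →
      V ≤ A * ((n : ℝ) ^ (-d0) * y ^ 3) → AP β s0 n y (2 * V) →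
      n * V / (2 * β) ≤ Phn n β y V - Phn n β y 0 + κ * (n * y ^ 5) →
      ∀ T : ℝ, 0 < T → T ≤ (n : ℝ) ^ (-c1) * y ^ 2 → ∃ m : ℝ, y < m ∧ m ≤ 1 ∧
        y * m / (m - y) * (PsiV n β (V - sL k n y ^ 2) y m T - Phn n β y (V - sL k n y ^ 2) +
          n * (sL k n y ^ 2 * (1 + etaL ce n) ^ 2) / 2) ≤ ε * (n * y ^ 6) := by
  intro ε hε
  obtain ⟨κ, hκ, h⟩ := near_V hβ hP hL hb₀ hd0 hk hc1 ε hε
  refine ⟨κ, hκ, fun A hA => ?_⟩
  have hA0 : 0 < A := by linarith only [hA]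
  filter_upwards [h A hA, eventually_ge_atTop 1, ev_rpow hb₀ (6 / 1), ev_rpow hk (A / 1)] with
    n g1 g2 g3 g4 y V hy hy1 hyV hV hap hresp T hT hT1
  have hn1 : (1 : ℝ) ≤ n := by exact_mod_cast g2
  have hn0 : (0 : ℝ) < n := by linarith only [hn1]
  have hy0 : 0 < y := lt_of_lt_of_le (Real.rpow_pos_of_pos hn0 _) hy
  have hy5 : 0 < y ^ 5 := by positivity
  have hy3 : y ≤ 1 / 3 := by
    have h1 := rpow_key hn0 one_pos g3
    linarith only [h1, hy1]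
  have hV0 : 0 < V := by
    by_contra hcon
    have : A * V ≤ 0 := mul_nonpos_of_nonneg_of_nonpos hA0.le (not_lt.1 hcon)
    linarith only [this, hyV, hy5]
  obtain ⟨m, hm1, hm2, hm⟩ := g1 y hy hy1
  have hs2 : sL k n y ^ 2 = (n : ℝ) ^ (-k) * y ^ 5 := by
    unfold sL
    exact Real.sq_sqrt (by positivity)
  have hr : (n : ℝ) ^ (-k) * A ≤ 1 := rpow_key hn0 one_pos g4
  have hrp : 0 < (n : ℝ) ^ (-k) := Real.rpow_pos_of_pos hn0 _
  have hs : sL k n y ^ 2 ≤ A * ((n : ℝ) ^ (-k) * y ^ 5) := by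
    rw [hs2]
    exact le_mul_of_one_le_left (by positivity) hA
  have hsV : sL k n y ^ 2 ≤ V := by
    rw [hs2]
    calc (n : ℝ) ^ (-k) * y ^ 5 ≤ (n : ℝ) ^ (-k) * (A * V) :=
          mul_le_mul_of_nonneg_left hyV hrp.le
      _ = (n : ℝ) ^ (-k) * A * V := by ring
      _ ≤ 1 * V := mul_le_mul_of_nonneg_right hr hV0.le
      _ = V := one_mul V
  have he0 : 0 ≤ etaL ce n := (Real.rpow_pos_of_pos hn0 _).le
  have he1 : etaL ce n ≤ 1 := Real.rpow_le_one_of_one_le_of_nonpos hn1 (by linarith only [hce])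
  refine ⟨m, hm1, by linarith only [hm2, hy3], ?_⟩
  refine hm V (sL k n y) (etaL ce n) T hV0.le hV hs hsV he0 he1 hT.le ?_ hresp
  refine hT1.trans ?_
  exact le_mul_of_one_le_left (by positivity) hA

end Vale.Agent.P146.H75.W
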