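import Vale.Agent.P146.H75.LcBr
import Vale.Agent.P146.H443.PsiUp

/-!
# P146: the upper bound with two exponents for the functional `PsiV`
-/

open MeasureTheory ProbabilityTheory Filter Topology Set

namespace Vale.Agent.P146.H75.W

open Vale.Agent.P146.H698.FO (PsiV PsiT)

/-- The hypothesis of the near part from Guerra's bound with two shares of the bonds. -/
theorem psiUp_of {b A : ℝ} (hb : 1 < b)
    (hA : Tendsto (fun x => (Sh.Vx b x - Sh.P0 b) / x ^ 5) (𝓝[>] 0) (𝓝 A))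
    (hG : H443.GueLit b (fun N V x m T => PsiV N b V x m T)) :
    PsiUp b (Real.log 2 + Sh.P0 b) A := by
  intro ε hε
  obtain ⟨c, C, hc, hC, h⟩ := H443.psi_up hb hA hG ε hε
  have hC0 : 0 ≤ C := by linarith only [hC]
  refine ⟨c, C, hc, hC0, fun n hn y hy hyc => ?_⟩
  obtain ⟨m, hm1, hm2, _, hm⟩ := h y hy hyc
  refine ⟨m, hm1, by linarith only [hm2, hy], fun T V hT hT1 hV _ => (hm n T V hn hT hT1 hV).trans ?_⟩
  refine mul_le_mul_of_nonneg_left ?_ (Nat.cast_nonneg n)
  have h1 : 0 ≤ C * V ^ 2 := by positivity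
  have e : C * (V * y ^ 2 + V ^ 2 + T * y ^ 3) = C * y ^ 2 * V + C * V ^ 2 + C * T * y ^ 3 := by
    ring
  rw [e]
  linarith only [h1]

end Vale.Agent.P146.H75.W
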